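import Vale.Agent.P252.Rigidity.General.Cert4.Combine

/-!
# The structured blocks in the two frames
-/

namespace Vale.Agent.P252.General.Cert4

open Vale.Agent.P100T.PosCheck

/-- `62500 d₀₀`, `62500 d₀₁`, `62500 d₁₁` in the first frame. -/
def varsI : Fin 3 → Ex := ![m3 62500 0 0 2, m3 250 1 0 1, .add (m3 1 2 0 0) (m3 1 0 2 0)]

/-- `62500 d₀₀`, `62500 d₀₁`, `62500 d₁₁` in the second frame. -/
def varsII : Fin 3 → Ex :=
  ![.add (m3 62500 2 0 0) (m3 62500 0 2 0), m3 250 1 0 1, m3 1 0 0 2]

/-- The degrees of the coordinates of the three blocks. -/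
def wt0 : Fin 9 → ℕ := ![2, 2, 2, 1, 1, 1, 2, 0, 2]

/-- The degrees of the coordinates of the blocks of five. -/
def wt1 : Fin 5 → ℕ := ![2, 2, 1, 1, 2]

/-- The degrees of the coordinates of the blocks of three. -/
def wt2 : Fin 3 → ℕ := ![2, 1, 2]

/-- The common factor removed from the homogenised blocks. -/
def factor : ℤ := 190734863281250000000000000

/-- A structured entry, homogenised, minus the stored one. -/
def gap (s flat : Ex) (w : ℕ) : Ex := .sub (.mul s (.pow .z w)) (.mul (.num factor) flat)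

/-- Structured block 0 in frame I. -/
noncomputable def SI0 : Fin 9 → Fin 9 → Ex :=
  full0 (varsI 0) (varsI 1) (varsI 2) tabI0

/-- Structured block 1 in frame I. -/
noncomputable def SI1 : Fin 5 → Fin 5 → Ex :=
  comb (varsI 0) (varsI 1) (varsI 2) tabI1

/-- Structured block 2 in frame I. -/
noncomputable def SI2 : Fin 3 → Fin 3 → Ex :=
  comb (varsI 0) (varsI 1) (varsI 2) tabI2

/-- Structured block 0 in frame II. -/
noncomputable def SII0 : Fin 9 → Fin 9 → Ex :=
  full0 (varsII 0) (varsII 1) (varsII 2) tabII0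

/-- Structured block 1 in frame II. -/
noncomputable def SII1 : Fin 5 → Fin 5 → Ex :=
  comb (varsII 0) (varsII 1) (varsII 2) tabII1

/-- Structured block 2 in frame II. -/
noncomputable def SII2 : Fin 3 → Fin 3 → Ex :=
  comb (varsII 0) (varsII 1) (varsII 2) tabII2

end Vale.Agent.P252.General.Cert4
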