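import Vale.Agent.P252.Cert.DDCheck
import Vale.Agent.P252.Cert.ZeroCheck
import Vale.Agent.P252.Rigidity.General.Cert4.Struct

/-!
# From the bisection certificates and entry checks to the structured forms
-/

namespace Vale.Agent.P252.General.Cert4

open Finset Vale.Agent.P100T.PosCheck Vale.Agent.P252.PolyPSD

noncomputable section

/-- A sum of monomials of degree `d`, as the stored blocks are written. -/
def isHom (d : ℕ) : Ex → Bool
  | .add a b => isHom d a && isHom d b
  | .num k => k == 0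
  | .mul (.num _) (.mul (.pow .x i) (.mul (.pow .y j) (.pow .z k))) => i + j + k == d
  | _ => false

theorem eval_of_isHom {d : ℕ} {e : Ex} (h : isHom d e = true) (r X Y Z : ℝ) :
    e.eval (r * X) (r * Y) (r * Z) = r ^ d * e.eval X Y Z := by
  fun_induction isHom d e with
  | case1 a b ha hb =>
    simp only [Bool.and_eq_true] at h
    simp only [Ex.eval, ha h.1, hb h.2]
    ring
  | case2 k =>
    simp only [beq_iff_eq] at h
    simp [h, Ex.eval]
  | case3 c i j k =>
    simp only [beq_iff_eq] at h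
    subst h
    simp only [Ex.eval, mul_pow, pow_add]
    ring
  | case4 => simp at h

/-- Every leaf-checked tree of a symmetric homogeneous block is a certificate. -/
theorem posOn_of_tree {m : ℕ} {M : Fin m → Fin m → Ex}
    (hs : ∀ k l, M k l = M l k) (hh : ∀ k l, isHom 8 (M k l) = true) (t : Tree m) (V : Tri)
    (h : checkTree M t V = true) : PosOn M V :=
  posOn_of_checkTree (fun _ => 0) (fun k l p => by rw [hs k l])
    (fun k l r p => by
      simp only [pow_zero, one_mul]
      exact eval_of_isHom (hh k l) r p.1 p.2.1 p.2.2) t V h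

/-- The four root triangles. -/
def roots : Fin 4 → Tri :=
  ![⟨((-65536), 0, 65536), (0, 0, 65536), ((-65536), 65536, 65536)⟩,
    ⟨(0, 0, 65536), (0, 65536, 65536), ((-65536), 65536, 65536)⟩,
    ⟨(0, 0, 65536), (65536, 0, 65536), (65536, 65536, 65536)⟩,
    ⟨(0, 0, 65536), (65536, 65536, 65536), (0, 65536, 65536)⟩]

/-- The roots cover `|X| ≤ Z`, `0 ≤ Y ≤ Z`. -/
theorem roots_cover {X Y Z : ℝ} (hX : |X| ≤ Z) (hY : 0 ≤ Y) (hYZ : Y ≤ Z) :
    ∃ i a b c, 0 ≤ a ∧ 0 ≤ b ∧ 0 ≤ c ∧ (roots i).pt a b c = (X, Y, Z) := by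
  obtain ⟨h1, h2⟩ := abs_le.1 hX
  rcases le_total X 0 with hn | hn
  · rcases le_total (X + Y) 0 with hs | hs
    · refine ⟨0, (-X - Y) / 65536, (Z + X) / 65536, Y / 65536, by linarith, by linarith, by linarith, ?_⟩
      simp [roots, Tri.pt] <;> ring_nf
    · refine ⟨1, (Z - Y) / 65536, (Y + X) / 65536, -X / 65536, by linarith, by linarith, by linarith, ?_⟩
      simp [roots, Tri.pt] <;> ring_nf
  · rcases le_total Y X with hs | hs
    · refine ⟨2, (Z - X) / 65536, (X - Y) / 65536, Y / 65536, by linarith, by linarith, by linarith, ?_⟩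
      simp [roots, Tri.pt] <;> ring_nf
    · refine ⟨3, (Z - Y) / 65536, X / 65536, (Y - X) / 65536, by linarith, by linarith, by linarith, ?_⟩
      simp [roots, Tri.pt] <;> ring_nf

/-- The structured form is nonnegative in the region when the stored one is on the roots. -/
theorem qf_nonneg {m : ℕ} {S M : Fin m → Fin m → Ex} (w : Fin m → ℕ)
    (hM : ∀ i, PosOn M (roots i))
    (he : ∀ k, ((List.finRange m).all fun l => zeroCheck (gap (S k l) (M k l) (w k + w l))) = true)
    {X Y Z : ℝ} (hX : |X| ≤ Z) (hY : 0 ≤ Y) (hYZ : Y ≤ Z) (hZ : 0 < Z) (ξ : Fin m → ℝ) :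
    0 ≤ qf X Y Z S ξ := by
  obtain ⟨i, a, b, c, ha, hb, hc, hp⟩ := roots_cover hX hY hYZ
  have h := hM i a b c ha hb hc fun k => ξ k / Z ^ w k
  rw [hp] at h
  have e : qf X Y Z S ξ = (factor : ℝ) * ∑ k, ∑ l, ξ k / Z ^ w k * evalAt (M k l) (X, Y, Z) * (ξ l / Z ^ w l) := by
    simp only [qf, Finset.mul_sum]
    refine Finset.sum_congr rfl fun k _ => Finset.sum_congr rfl fun l _ => ?_
    have hz := eval_eq_zero (List.all_eq_true.1 (he k) l (List.mem_finRange l)) X Y Z
    simp only [gap, Ex.eval, sub_eq_zero, pow_add] at hz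
    simp only [evalAt]
    field_simp
    linear_combination (ξ k * ξ l) * hz
  rw [e]
  exact mul_nonneg (by norm_num [factor]) h

end

end Vale.Agent.P252.General.Cert4
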