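import Vale.Agent.P252.Rigidity.General.Cert4.Trees.MI0_0
import Vale.Agent.P252.Rigidity.General.Cert4.Trees.MI0_1
import Vale.Agent.P252.Rigidity.General.Cert4.Trees.MI0_2
import Vale.Agent.P252.Rigidity.General.Cert4.Trees.MI0_3
import Vale.Agent.P252.Rigidity.General.Cert4.Trees.MI0_4
import Vale.Agent.P252.Rigidity.General.Cert4.Trees.MI0_5
import Vale.Agent.P252.Rigidity.General.Cert4.Trees.MI0_6
import Vale.Agent.P252.Rigidity.General.Cert4.Trees.MI0_7
import Vale.Agent.P252.Rigidity.General.Cert4.Trees.MI0_8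
import Vale.Agent.P252.Rigidity.General.Cert4.Trees.MI0_9
import Vale.Agent.P252.Rigidity.General.Cert4.Trees.MI0_10
import Vale.Agent.P252.Rigidity.General.Cert4.Trees.MI0_11
import Vale.Agent.P252.Rigidity.General.Cert4.Trees.MI0_12
import Vale.Agent.P252.Rigidity.General.Cert4.Entries.EI0_0
import Vale.Agent.P252.Rigidity.General.Cert4.Entries.EI0_1
import Vale.Agent.P252.Rigidity.General.Cert4.Entries.EI0_2
import Vale.Agent.P252.Rigidity.General.Cert4.Entries.EI0_3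
import Vale.Agent.P252.Rigidity.General.Cert4.Entries.EI0_4
import Vale.Agent.P252.Rigidity.General.Cert4.Entries.EI0_5
import Vale.Agent.P252.Rigidity.General.Cert4.Entries.EI0_6
import Vale.Agent.P252.Rigidity.General.Cert4.Entries.EI0_7
import Vale.Agent.P252.Rigidity.General.Cert4.Entries.EI0_8
import Vale.Agent.P252.Rigidity.General.Cert4.Region

/-! One block is nonnegative on its region, generated. -/

namespace Vale.Agent.P252.General.Cert4

open Vale.Agent.P100T.PosCheck Vale.Agent.P252.PolyPSD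

theorem symMI0 : ∀ k l, MI0 k l = MI0 l k := by
  intro k l
  fin_cases k <;> fin_cases l <;> rfl

theorem homMI0 : ∀ k l, isHom 8 (MI0 k l) = true := by
  decide +kernel

theorem posOnMI0_0 : PosOn MI0 (roots 0) :=
  (posOn_rot 1 (posOn_bisect (by decide +kernel) (posOn_rot 2 (posOn_bisect (by decide +kernel) (posOn_rot 2 (posOn_bisect (by decide +kernel) (posOn_rot 2 (posOn_bisect (by decide +kernel) (posOn_of_tree symMI0 homMI0 _ _ MI0_r0aaaa) (posOn_of_tree symMI0 homMI0 _ _ MI0_r0aaab))) (posOn_rot 1 (posOn_bisect (by decide +kernel) (posOn_rot 2 (posOn_bisect (by decide +kernel) (posOn_of_tree symMI0 homMI0 _ _ MI0_r0aabaa) (posOn_rot 1 (posOn_bisect (by decide +kernel) (posOn_of_tree symMI0 homMI0 _ _ MI0_r0aababa) (posOn_of_tree symMI0 homMI0 _ _ MI0_r0aababb))))) (posOn_rot 1 (posOn_bisect (by decide +kernel) (posOn_of_tree symMI0 homMI0 _ _ MI0_r0aabba) (posOn_of_tree symMI0 homMI0 _ _ MI0_r0aabbb)))))))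 (posOn_rot 1 (posOn_bisect (by decide +kernel) (posOn_rot 2 (posOn_bisect (by decide +kernel) (posOn_of_tree symMI0 homMI0 _ _ MI0_r0abaa) (posOn_rot 1 (posOn_bisect (by decide +kernel) (posOn_of_tree symMI0 homMI0 _ _ MI0_r0ababa) (posOn_of_tree symMI0 homMI0 _ _ MI0_r0ababb))))) (posOn_rot 1 (posOn_bisect (by decide +kernel) (posOn_of_tree symMI0 homMI0 _ _ MI0_r0abba) (posOn_of_tree symMI0 homMI0 _ _ MI0_r0abbb))))))) (posOn_rot 1 (posOn_bisect (by decide +kernel) (posOn_rot 2 (posOn_bisect (by decide +kernel) (posOn_rot 2 (posOn_bisect (by decide +kernel) (posOn_of_tree symMI0 homMI0 _ _ MI0_r0baaa) (posOn_of_tree symMI0 homMI0 _ _ MI0_r0baab))) (posOn_rot 1 (posOn_bisect (by decide +kernel) (posOn_of_tree symMI0 homMI0 _ _ MI0_r0baba) (posOn_of_tree symMI0 homMI0 _ _ MI0_r0babb))))) (posOn_rot 1 (posOn_bisect (by decide +kernel) (posOn_rot 2 (posOn_bisect (by decide +kernel) (posOn_of_tree symMI0 homMI0 _ _ MI0_r0bbaa)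 (posOn_rot 1 (posOn_bisect (by decide +kernel) (posOn_of_tree symMI0 homMI0 _ _ MI0_r0bbaba) (posOn_of_tree symMI0 homMI0 _ _ MI0_r0bbabb))))) (posOn_of_tree symMI0 homMI0 _ _ MI0_r0bbb)))))))

theorem posOnMI0_1 : PosOn MI0 (roots 1) :=
  (posOn_rot 2 (posOn_bisect (by decide +kernel) (posOn_rot 2 (posOn_bisect (by decide +kernel) (posOn_rot 2 (posOn_bisect (by decide +kernel) (posOn_rot 2 (posOn_bisect (by decide +kernel) (posOn_rot 2 (posOn_bisect (by decide +kernel) (posOn_of_tree symMI0 homMI0 _ _ MI0_r1aaaaa) (posOn_of_tree symMI0 homMI0 _ _ MI0_r1aaaab))) (posOn_rot 1 (posOn_bisect (by decide +kernel) (posOn_of_tree symMI0 homMI0 _ _ MI0_r1aaaba) (posOn_of_tree symMI0 homMI0 _ _ MI0_r1aaabb))))) (posOn_rot 1 (posOn_bisect (by decide +kernel) (posOn_rot 2 (posOn_bisect (by decide +kernel) (posOn_of_tree symMI0 homMI0 _ _ MI0_r1aabaa) (posOn_rot 1 (posOn_bisect (by decide +kernel) (posOn_rot 2 (posOn_bisect (by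 decide +kernel) (posOn_of_tree symMI0 homMI0 _ _ MI0_r1aababaa) (posOn_of_tree symMI0 homMI0 _ _ MI0_r1aababab))) (posOn_of_tree symMI0 homMI0 _ _ MI0_r1aababb))))) (posOn_rot 1 (posOn_bisect (by decide +kernel) (posOn_of_tree symMI0 homMI0 _ _ MI0_r1aabba) (posOn_of_tree symMI0 homMI0 _ _ MI0_r1aabbb))))))) (posOn_rot 1 (posOn_bisect (by decide +kernel) (posOn_rot 2 (posOn_bisect (by decide +kernel) (posOn_rot 2 (posOn_bisect (by decide +kernel) (posOn_of_tree symMI0 homMI0 _ _ MI0_r1abaaa) (posOn_of_tree symMI0 homMI0 _ _ MI0_r1abaab))) (posOn_of_tree symMI0 homMI0 _ _ MI0_r1abab))) (posOn_rot 1 (posOn_bisect (by decide +kernel) (posOn_of_tree symMI0 homMI0 _ _ MI0_r1abba) (posOn_of_tree symMI0 homMI0 _ _ MI0_r1abbb))))))) (posOn_rot 1 (posOn_bisect (by decide +kernel) (posOn_rot 2 (posOn_bisect (by decide +kernel) (posOn_rot 2 (posOn_bisect (by decide +kernel) (posOn_rot 2 (posOn_bisect (by decide +kernel) (posOn_of_tree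 symMI0 homMI0 _ _ MI0_r1baaaa) (posOn_rot 1 (posOn_bisect (by decide +kernel) (posOn_rot 2 (posOn_bisect (by decide +kernel) (posOn_of_tree symMI0 homMI0 _ _ MI0_r1baaabaa) (posOn_of_tree symMI0 homMI0 _ _ MI0_r1baaabab))) (posOn_of_tree symMI0 homMI0 _ _ MI0_r1baaabb))))) (posOn_of_tree symMI0 homMI0 _ _ MI0_r1baab))) (posOn_rot 1 (posOn_bisect (by decide +kernel) (posOn_rot 2 (posOn_bisect (by decide +kernel) (posOn_rot 2 (posOn_bisect (by decide +kernel) (posOn_of_tree symMI0 homMI0 _ _ MI0_r1babaaa) (posOn_of_tree symMI0 homMI0 _ _ MI0_r1babaab))) (posOn_of_tree symMI0 homMI0 _ _ MI0_r1babab))) (posOn_rot 1 (posOn_bisect (by decide +kernel) (posOn_rot 2 (posOn_bisect (by decide +kernel) (posOn_of_tree symMI0 homMI0 _ _ MI0_r1babbaa) (posOn_of_tree symMI0 homMI0 _ _ MI0_r1babbab))) (posOn_rot 1 (posOn_bisect (by decide +kernel) (posOn_of_tree symMI0 homMI0 _ _ MI0_r1babbba) (posOn_of_tree symMI0 homMI0 _ _ MI0_r1babbbb)))))))))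 (posOn_rot 1 (posOn_bisect (by decide +kernel) (posOn_rot 2 (posOn_bisect (by decide +kernel) (posOn_rot 2 (posOn_bisect (by decide +kernel) (posOn_rot 2 (posOn_bisect (by decide +kernel) (posOn_rot 2 (posOn_bisect (by decide +kernel) (posOn_of_tree symMI0 homMI0 _ _ MI0_r1bbaaaaa) (posOn_of_tree symMI0 homMI0 _ _ MI0_r1bbaaaab))) (posOn_of_tree symMI0 homMI0 _ _ MI0_r1bbaaab))) (posOn_rot 1 (posOn_bisect (by decide +kernel) (posOn_rot 2 (posOn_bisect (by decide +kernel) (posOn_of_tree symMI0 homMI0 _ _ MI0_r1bbaabaa) (posOn_of_tree symMI0 homMI0 _ _ MI0_r1bbaabab))) (posOn_rot 1 (posOn_bisect (by decide +kernel) (posOn_of_tree symMI0 homMI0 _ _ MI0_r1bbaabba) (posOn_of_tree symMI0 homMI0 _ _ MI0_r1bbaabbb))))))) (posOn_rot 1 (posOn_bisect (by decide +kernel) (posOn_rot 2 (posOn_bisect (by decide +kernel) (posOn_rot 2 (posOn_bisect (by decide +kernel) (posOn_of_tree symMI0 homMI0 _ _ MI0_r1bbabaaa) (posOn_of_tree symMI0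 homMI0 _ _ MI0_r1bbabaab))) (posOn_rot 1 (posOn_bisect (by decide +kernel) (posOn_of_tree symMI0 homMI0 _ _ MI0_r1bbababa) (posOn_of_tree symMI0 homMI0 _ _ MI0_r1bbababb))))) (posOn_rot 1 (posOn_bisect (by decide +kernel) (posOn_of_tree symMI0 homMI0 _ _ MI0_r1bbabba) (posOn_rot 1 (posOn_bisect (by decide +kernel) (posOn_of_tree symMI0 homMI0 _ _ MI0_r1bbabbba) (posOn_of_tree symMI0 homMI0 _ _ MI0_r1bbabbbb))))))))) (posOn_rot 1 (posOn_bisect (by decide +kernel) (posOn_rot 2 (posOn_bisect (by decide +kernel) (posOn_of_tree symMI0 homMI0 _ _ MI0_r1bbbaa) (posOn_of_tree symMI0 homMI0 _ _ MI0_r1bbbab))) (posOn_rot 1 (posOn_bisect (by decide +kernel) (posOn_rot 2 (posOn_bisect (by decide +kernel) (posOn_of_tree symMI0 homMI0 _ _ MI0_r1bbbbaa) (posOn_rot 1 (posOn_bisect (by decide +kernel) (posOn_of_tree symMI0 homMI0 _ _ MI0_r1bbbbaba) (posOn_of_tree symMI0 homMI0 _ _ MI0_r1bbbbabb))))) (posOn_of_tree symMI0 homMI0 _ _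 MI0_r1bbbbb)))))))))))

theorem posOnMI0_2 : PosOn MI0 (roots 2) :=
  (posOn_rot 2 (posOn_bisect (by decide +kernel) (posOn_rot 2 (posOn_bisect (by decide +kernel) (posOn_rot 2 (posOn_bisect (by decide +kernel) (posOn_rot 2 (posOn_bisect (by decide +kernel) (posOn_rot 2 (posOn_bisect (by decide +kernel) (posOn_rot 2 (posOn_bisect (by decide +kernel) (posOn_rot 2 (posOn_bisect (by decide +kernel) (posOn_rot 2 (posOn_bisect (by decide +kernel) (posOn_of_tree symMI0 homMI0 _ _ MI0_r2aaaaaaaa) (posOn_of_tree symMI0 homMI0 _ _ MI0_r2aaaaaaab))) (posOn_of_tree symMI0 homMI0 _ _ MI0_r2aaaaaab))) (posOn_rot 1 (posOn_bisect (by decide +kernel) (posOn_of_tree symMI0 homMI0 _ _ MI0_r2aaaaaba) (posOn_rot 1 (posOn_bisect (by decide +kernel) (posOn_of_tree symMI0 homMI0 _ _ MI0_r2aaaaabba) (posOn_of_tree symMI0 homMI0 _ _ MI0_r2aaaaabbb))))))) (posOn_rot 1 (posOn_bisect (by decide +kernel) (posOn_rot 2 (posOn_bisect (by decide +kernel)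 (posOn_rot 2 (posOn_bisect (by decide +kernel) (posOn_of_tree symMI0 homMI0 _ _ MI0_r2aaaabaaa) (posOn_of_tree symMI0 homMI0 _ _ MI0_r2aaaabaab))) (posOn_of_tree symMI0 homMI0 _ _ MI0_r2aaaabab))) (posOn_rot 1 (posOn_bisect (by decide +kernel) (posOn_of_tree symMI0 homMI0 _ _ MI0_r2aaaabba) (posOn_rot 1 (posOn_bisect (by decide +kernel) (posOn_of_tree symMI0 homMI0 _ _ MI0_r2aaaabbba) (posOn_of_tree symMI0 homMI0 _ _ MI0_r2aaaabbbb))))))))) (posOn_rot 1 (posOn_bisect (by decide +kernel) (posOn_rot 2 (posOn_bisect (by decide +kernel) (posOn_of_tree symMI0 homMI0 _ _ MI0_r2aaabaa) (posOn_rot 1 (posOn_bisect (by decide +kernel) (posOn_of_tree symMI0 homMI0 _ _ MI0_r2aaababa) (posOn_of_tree symMI0 homMI0 _ _ MI0_r2aaababb))))) (posOn_rot 1 (posOn_bisect (by decide +kernel) (posOn_rot 2 (posOn_bisect (by decide +kernel) (posOn_of_tree symMI0 homMI0 _ _ MI0_r2aaabbaa) (posOn_rot 1 (posOn_bisect (by decide +kernel) (posOn_of_tree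 symMI0 homMI0 _ _ MI0_r2aaabbaba) (posOn_of_tree symMI0 homMI0 _ _ MI0_r2aaabbabb))))) (posOn_of_tree symMI0 homMI0 _ _ MI0_r2aaabbb))))))) (posOn_rot 1 (posOn_bisect (by decide +kernel) (posOn_rot 2 (posOn_bisect (by decide +kernel) (posOn_rot 2 (posOn_bisect (by decide +kernel) (posOn_rot 2 (posOn_bisect (by decide +kernel) (posOn_rot 2 (posOn_bisect (by decide +kernel) (posOn_rot 2 (posOn_bisect (by decide +kernel) (posOn_of_tree symMI0 homMI0 _ _ MI0_r2aabaaaaaa) (posOn_of_tree symMI0 homMI0 _ _ MI0_r2aabaaaaab))) (posOn_of_tree symMI0 homMI0 _ _ MI0_r2aabaaaab))) (posOn_rot 1 (posOn_bisect (by decide +kernel) (posOn_of_tree symMI0 homMI0 _ _ MI0_r2aabaaaba) (posOn_rot 1 (posOn_bisect (by decide +kernel) (posOn_of_tree symMI0 homMI0 _ _ MI0_r2aabaaabba) (posOn_of_tree symMI0 homMI0 _ _ MI0_r2aabaaabbb))))))) (posOn_rot 1 (posOn_bisect (by decide +kernel) (posOn_rot 2 (posOn_bisect (by decide +kernel) (posOn_of_tree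 symMI0 homMI0 _ _ MI0_r2aabaabaa) (posOn_of_tree symMI0 homMI0 _ _ MI0_r2aabaabab))) (posOn_rot 1 (posOn_bisect (by decide +kernel) (posOn_rot 2 (posOn_bisect (by decide +kernel) (posOn_of_tree symMI0 homMI0 _ _ MI0_r2aabaabbaa) (posOn_of_tree symMI0 homMI0 _ _ MI0_r2aabaabbab))) (posOn_of_tree symMI0 homMI0 _ _ MI0_r2aabaabbb))))))) (posOn_rot 1 (posOn_bisect (by decide +kernel) (posOn_rot 2 (posOn_bisect (by decide +kernel) (posOn_rot 2 (posOn_bisect (by decide +kernel) (posOn_of_tree symMI0 homMI0 _ _ MI0_r2aababaaa) (posOn_rot 1 (posOn_bisect (by decide +kernel) (posOn_of_tree symMI0 homMI0 _ _ MI0_r2aababaaba) (posOn_of_tree symMI0 homMI0 _ _ MI0_r2aababaabb))))) (posOn_rot 1 (posOn_bisect (by decide +kernel) (posOn_rot 2 (posOn_bisect (by decide +kernel) (posOn_of_tree symMI0 homMI0 _ _ MI0_r2aabababaa) (posOn_of_tree symMI0 homMI0 _ _ MI0_r2aabababab))) (posOn_of_tree symMI0 homMI0 _ _ MI0_r2aabababb))))) (posOn_rot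 1 (posOn_bisect (by decide +kernel) (posOn_rot 2 (posOn_bisect (by decide +kernel) (posOn_rot 2 (posOn_bisect (by decide +kernel) (posOn_of_tree symMI0 homMI0 _ _ MI0_r2aababbaaa) (posOn_of_tree symMI0 homMI0 _ _ MI0_r2aababbaab))) (posOn_of_tree symMI0 homMI0 _ _ MI0_r2aababbab))) (posOn_rot 1 (posOn_bisect (by decide +kernel) (posOn_of_tree symMI0 homMI0 _ _ MI0_r2aababbba) (posOn_rot 1 (posOn_bisect (by decide +kernel) (posOn_of_tree symMI0 homMI0 _ _ MI0_r2aababbbba) (posOn_of_tree symMI0 homMI0 _ _ MI0_r2aababbbbb))))))))))) (posOn_rot 1 (posOn_bisect (by decide +kernel) (posOn_rot 2 (posOn_bisect (by decide +kernel) (posOn_rot 2 (posOn_bisect (by decide +kernel) (posOn_rot 2 (posOn_bisect (by decide +kernel) (posOn_of_tree symMI0 homMI0 _ _ MI0_r2aabbaaaa) (posOn_rot 1 (posOn_bisect (by decide +kernel) (posOn_of_tree symMI0 homMI0 _ _ MI0_r2aabbaaaba) (posOn_of_tree symMI0 homMI0 _ _ MI0_r2aabbaaabb))))) (posOn_rot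 1 (posOn_bisect (by decide +kernel) (posOn_rot 2 (posOn_bisect (by decide +kernel) (posOn_of_tree symMI0 homMI0 _ _ MI0_r2aabbaabaa) (posOn_of_tree symMI0 homMI0 _ _ MI0_r2aabbaabab))) (posOn_of_tree symMI0 homMI0 _ _ MI0_r2aabbaabb))))) (posOn_rot 1 (posOn_bisect (by decide +kernel) (posOn_rot 2 (posOn_bisect (by decide +kernel) (posOn_rot 2 (posOn_bisect (by decide +kernel) (posOn_of_tree symMI0 homMI0 _ _ MI0_r2aabbabaaa) (posOn_of_tree symMI0 homMI0 _ _ MI0_r2aabbabaab))) (posOn_of_tree symMI0 homMI0 _ _ MI0_r2aabbabab))) (posOn_rot 1 (posOn_bisect (by decide +kernel) (posOn_of_tree symMI0 homMI0 _ _ MI0_r2aabbabba) (posOn_of_tree symMI0 homMI0 _ _ MI0_r2aabbabbb))))))) (posOn_rot 1 (posOn_bisect (by decide +kernel) (posOn_rot 2 (posOn_bisect (by decide +kernel) (posOn_rot 2 (posOn_bisect (by decide +kernel) (posOn_rot 2 (posOn_bisect (by decide +kernel) (posOn_of_tree symMI0 homMI0 _ _ MI0_r2aabbbaaaa) (posOn_of_tree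 symMI0 homMI0 _ _ MI0_r2aabbbaaab))) (posOn_of_tree symMI0 homMI0 _ _ MI0_r2aabbbaab))) (posOn_rot 1 (posOn_bisect (by decide +kernel) (posOn_of_tree symMI0 homMI0 _ _ MI0_r2aabbbaba) (posOn_rot 1 (posOn_bisect (by decide +kernel) (posOn_of_tree symMI0 homMI0 _ _ MI0_r2aabbbabba) (posOn_of_tree symMI0 homMI0 _ _ MI0_r2aabbbabbb))))))) (posOn_rot 1 (posOn_bisect (by decide +kernel) (posOn_rot 2 (posOn_bisect (by decide +kernel) (posOn_of_tree symMI0 homMI0 _ _ MI0_r2aabbbbaa) (posOn_rot 1 (posOn_bisect (by decide +kernel) (posOn_of_tree symMI0 homMI0 _ _ MI0_r2aabbbbaba) (posOn_of_tree symMI0 homMI0 _ _ MI0_r2aabbbbabb))))) (posOn_rot 1 (posOn_bisect (by decide +kernel) (posOn_rot 2 (posOn_bisect (by decide +kernel) (posOn_of_tree symMI0 homMI0 _ _ MI0_r2aabbbbbaa) (posOn_of_tree symMI0 homMI0 _ _ MI0_r2aabbbbbab))) (posOn_of_tree symMI0 homMI0 _ _ MI0_r2aabbbbbb))))))))))))) (posOn_rot 1 (posOn_bisect (by decide +kernel)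 (posOn_rot 2 (posOn_bisect (by decide +kernel) (posOn_rot 2 (posOn_bisect (by decide +kernel) (posOn_rot 2 (posOn_bisect (by decide +kernel) (posOn_of_tree symMI0 homMI0 _ _ MI0_r2abaaaa) (posOn_rot 1 (posOn_bisect (by decide +kernel) (posOn_of_tree symMI0 homMI0 _ _ MI0_r2abaaaba) (posOn_of_tree symMI0 homMI0 _ _ MI0_r2abaaabb))))) (posOn_rot 1 (posOn_bisect (by decide +kernel) (posOn_rot 2 (posOn_bisect (by decide +kernel) (posOn_of_tree symMI0 homMI0 _ _ MI0_r2abaabaa) (posOn_rot 1 (posOn_bisect (by decide +kernel) (posOn_of_tree symMI0 homMI0 _ _ MI0_r2abaababa) (posOn_of_tree symMI0 homMI0 _ _ MI0_r2abaababb))))) (posOn_of_tree symMI0 homMI0 _ _ MI0_r2abaabb))))) (posOn_rot 1 (posOn_bisect (by decide +kernel) (posOn_rot 2 (posOn_bisect (by decide +kernel) (posOn_rot 2 (posOn_bisect (by decide +kernel) (posOn_of_tree symMI0 homMI0 _ _ MI0_r2ababaaa) (posOn_of_tree symMI0 homMI0 _ _ MI0_r2ababaab))) (posOn_of_tree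 symMI0 homMI0 _ _ MI0_r2ababab))) (posOn_rot 1 (posOn_bisect (by decide +kernel) (posOn_of_tree symMI0 homMI0 _ _ MI0_r2ababba) (posOn_rot 1 (posOn_bisect (by decide +kernel) (posOn_of_tree symMI0 homMI0 _ _ MI0_r2ababbba) (posOn_of_tree symMI0 homMI0 _ _ MI0_r2ababbbb))))))))) (posOn_rot 1 (posOn_bisect (by decide +kernel) (posOn_rot 2 (posOn_bisect (by decide +kernel) (posOn_rot 2 (posOn_bisect (by decide +kernel) (posOn_rot 2 (posOn_bisect (by decide +kernel) (posOn_of_tree symMI0 homMI0 _ _ MI0_r2abbaaaa) (posOn_of_tree symMI0 homMI0 _ _ MI0_r2abbaaab))) (posOn_of_tree symMI0 homMI0 _ _ MI0_r2abbaab))) (posOn_rot 1 (posOn_bisect (by decide +kernel) (posOn_of_tree symMI0 homMI0 _ _ MI0_r2abbaba) (posOn_rot 1 (posOn_bisect (by decide +kernel) (posOn_of_tree symMI0 homMI0 _ _ MI0_r2abbabba) (posOn_of_tree symMI0 homMI0 _ _ MI0_r2abbabbb))))))) (posOn_rot 1 (posOn_bisect (by decide +kernel) (posOn_rot 2 (posOn_bisect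 (by decide +kernel) (posOn_of_tree symMI0 homMI0 _ _ MI0_r2abbbaa) (posOn_rot 1 (posOn_bisect (by decide +kernel) (posOn_of_tree symMI0 homMI0 _ _ MI0_r2abbbaba) (posOn_of_tree symMI0 homMI0 _ _ MI0_r2abbbabb))))) (posOn_rot 1 (posOn_bisect (by decide +kernel) (posOn_rot 2 (posOn_bisect (by decide +kernel) (posOn_of_tree symMI0 homMI0 _ _ MI0_r2abbbbaa) (posOn_of_tree symMI0 homMI0 _ _ MI0_r2abbbbab))) (posOn_of_tree symMI0 homMI0 _ _ MI0_r2abbbbb))))))))))) (posOn_rot 1 (posOn_bisect (by decide +kernel) (posOn_rot 2 (posOn_bisect (by decide +kernel) (posOn_rot 2 (posOn_bisect (by decide +kernel) (posOn_rot 2 (posOn_bisect (by decide +kernel) (posOn_of_tree symMI0 homMI0 _ _ MI0_r2baaaa) (posOn_rot 1 (posOn_bisect (by decide +kernel) (posOn_of_tree symMI0 homMI0 _ _ MI0_r2baaaba) (posOn_of_tree symMI0 homMI0 _ _ MI0_r2baaabb))))) (posOn_rot 1 (posOn_bisect (by decide +kernel) (posOn_rot 2 (posOn_bisect (by decide +kernel)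 (posOn_of_tree symMI0 homMI0 _ _ MI0_r2baabaa) (posOn_of_tree symMI0 homMI0 _ _ MI0_r2baabab))) (posOn_rot 1 (posOn_bisect (by decide +kernel) (posOn_of_tree symMI0 homMI0 _ _ MI0_r2baabba) (posOn_of_tree symMI0 homMI0 _ _ MI0_r2baabbb))))))) (posOn_rot 1 (posOn_bisect (by decide +kernel) (posOn_rot 2 (posOn_bisect (by decide +kernel) (posOn_of_tree symMI0 homMI0 _ _ MI0_r2babaa) (posOn_rot 1 (posOn_bisect (by decide +kernel) (posOn_of_tree symMI0 homMI0 _ _ MI0_r2bababa) (posOn_of_tree symMI0 homMI0 _ _ MI0_r2bababb))))) (posOn_rot 1 (posOn_bisect (by decide +kernel) (posOn_of_tree symMI0 homMI0 _ _ MI0_r2babba) (posOn_of_tree symMI0 homMI0 _ _ MI0_r2babbb))))))) (posOn_rot 1 (posOn_bisect (by decide +kernel) (posOn_rot 2 (posOn_bisect (by decide +kernel) (posOn_rot 2 (posOn_bisect (by decide +kernel) (posOn_rot 2 (posOn_bisect (by decide +kernel) (posOn_rot 2 (posOn_bisect (by decide +kernel) (posOn_of_tree symMI0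 homMI0 _ _ MI0_r2bbaaaaa) (posOn_of_tree symMI0 homMI0 _ _ MI0_r2bbaaaab))) (posOn_rot 1 (posOn_bisect (by decide +kernel) (posOn_of_tree symMI0 homMI0 _ _ MI0_r2bbaaaba) (posOn_of_tree symMI0 homMI0 _ _ MI0_r2bbaaabb))))) (posOn_rot 1 (posOn_bisect (by decide +kernel) (posOn_of_tree symMI0 homMI0 _ _ MI0_r2bbaaba) (posOn_rot 1 (posOn_bisect (by decide +kernel) (posOn_of_tree symMI0 homMI0 _ _ MI0_r2bbaabba) (posOn_of_tree symMI0 homMI0 _ _ MI0_r2bbaabbb))))))) (posOn_rot 1 (posOn_bisect (by decide +kernel) (posOn_rot 2 (posOn_bisect (by decide +kernel) (posOn_rot 2 (posOn_bisect (by decide +kernel) (posOn_rot 2 (posOn_bisect (by decide +kernel) (posOn_of_tree symMI0 homMI0 _ _ MI0_r2bbabaaaa) (posOn_of_tree symMI0 homMI0 _ _ MI0_r2bbabaaab))) (posOn_of_tree symMI0 homMI0 _ _ MI0_r2bbabaab))) (posOn_rot 1 (posOn_bisect (by decide +kernel) (posOn_rot 2 (posOn_bisect (by decide +kernel) (posOn_of_tree symMI0 homMI0 _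 _ MI0_r2bbababaa) (posOn_rot 1 (posOn_bisect (by decide +kernel) (posOn_of_tree symMI0 homMI0 _ _ MI0_r2bbabababa) (posOn_of_tree symMI0 homMI0 _ _ MI0_r2bbabababb))))) (posOn_rot 1 (posOn_bisect (by decide +kernel) (posOn_of_tree symMI0 homMI0 _ _ MI0_r2bbababba) (posOn_of_tree symMI0 homMI0 _ _ MI0_r2bbababbb))))))) (posOn_rot 1 (posOn_bisect (by decide +kernel) (posOn_rot 2 (posOn_bisect (by decide +kernel) (posOn_rot 2 (posOn_bisect (by decide +kernel) (posOn_of_tree symMI0 homMI0 _ _ MI0_r2bbabbaaa) (posOn_of_tree symMI0 homMI0 _ _ MI0_r2bbabbaab))) (posOn_of_tree symMI0 homMI0 _ _ MI0_r2bbabbab))) (posOn_rot 1 (posOn_bisect (by decide +kernel) (posOn_of_tree symMI0 homMI0 _ _ MI0_r2bbabbba) (posOn_of_tree symMI0 homMI0 _ _ MI0_r2bbabbbb))))))))) (posOn_rot 1 (posOn_bisect (by decide +kernel) (posOn_rot 2 (posOn_bisect (by decide +kernel) (posOn_rot 2 (posOn_bisect (by decide +kernel) (posOn_of_tree symMI0 homMI0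 _ _ MI0_r2bbbaaa) (posOn_rot 1 (posOn_bisect (by decide +kernel) (posOn_of_tree symMI0 homMI0 _ _ MI0_r2bbbaaba) (posOn_of_tree symMI0 homMI0 _ _ MI0_r2bbbaabb))))) (posOn_rot 1 (posOn_bisect (by decide +kernel) (posOn_rot 2 (posOn_bisect (by decide +kernel) (posOn_of_tree symMI0 homMI0 _ _ MI0_r2bbbabaa) (posOn_of_tree symMI0 homMI0 _ _ MI0_r2bbbabab))) (posOn_of_tree symMI0 homMI0 _ _ MI0_r2bbbabb))))) (posOn_rot 1 (posOn_bisect (by decide +kernel) (posOn_of_tree symMI0 homMI0 _ _ MI0_r2bbbba) (posOn_rot 1 (posOn_bisect (by decide +kernel) (posOn_of_tree symMI0 homMI0 _ _ MI0_r2bbbbba) (posOn_rot 1 (posOn_bisect (by decide +kernel) (posOn_of_tree symMI0 homMI0 _ _ MI0_r2bbbbbba) (posOn_of_tree symMI0 homMI0 _ _ MI0_r2bbbbbbb)))))))))))))))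

theorem posOnMI0_3 : PosOn MI0 (roots 3) :=
  (posOn_rot 0 (posOn_bisect (by decide +kernel) (posOn_rot 2 (posOn_bisect (by decide +kernel) (posOn_rot 2 (posOn_bisect (by decide +kernel) (posOn_rot 2 (posOn_bisect (by decide +kernel) (posOn_rot 2 (posOn_bisect (by decide +kernel) (posOn_rot 2 (posOn_bisect (by decide +kernel) (posOn_rot 2 (posOn_bisect (by decide +kernel) (posOn_of_tree symMI0 homMI0 _ _ MI0_r3aaaaaaa) (posOn_of_tree symMI0 homMI0 _ _ MI0_r3aaaaaab))) (posOn_rot 1 (posOn_bisect (by decide +kernel) (posOn_of_tree symMI0 homMI0 _ _ MI0_r3aaaaaba) (posOn_of_tree symMI0 homMI0 _ _ MI0_r3aaaaabb))))) (posOn_rot 1 (posOn_bisect (by decide +kernel) (posOn_rot 2 (posOn_bisect (by decide +kernel) (posOn_of_tree symMI0 homMI0 _ _ MI0_r3aaaabaa) (posOn_of_tree symMI0 homMI0 _ _ MI0_r3aaaabab))) (posOn_rot 1 (posOn_bisect (by decide +kernel) (posOn_of_tree symMI0 homMI0 _ _ MI0_r3aaaabba) (posOn_of_tree symMI0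 homMI0 _ _ MI0_r3aaaabbb))))))) (posOn_rot 1 (posOn_bisect (by decide +kernel) (posOn_rot 2 (posOn_bisect (by decide +kernel) (posOn_of_tree symMI0 homMI0 _ _ MI0_r3aaabaa) (posOn_rot 1 (posOn_bisect (by decide +kernel) (posOn_of_tree symMI0 homMI0 _ _ MI0_r3aaababa) (posOn_of_tree symMI0 homMI0 _ _ MI0_r3aaababb))))) (posOn_rot 1 (posOn_bisect (by decide +kernel) (posOn_rot 2 (posOn_bisect (by decide +kernel) (posOn_of_tree symMI0 homMI0 _ _ MI0_r3aaabbaa) (posOn_of_tree symMI0 homMI0 _ _ MI0_r3aaabbab))) (posOn_of_tree symMI0 homMI0 _ _ MI0_r3aaabbb))))))) (posOn_rot 1 (posOn_bisect (by decide +kernel) (posOn_rot 2 (posOn_bisect (by decide +kernel) (posOn_rot 2 (posOn_bisect (by decide +kernel) (posOn_rot 2 (posOn_bisect (by decide +kernel) (posOn_of_tree symMI0 homMI0 _ _ MI0_r3aabaaaa) (posOn_rot 1 (posOn_bisect (by decide +kernel) (posOn_of_tree symMI0 homMI0 _ _ MI0_r3aabaaaba) (posOn_of_tree symMI0 homMI0 _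 _ MI0_r3aabaaabb))))) (posOn_rot 1 (posOn_bisect (by decide +kernel) (posOn_rot 2 (posOn_bisect (by decide +kernel) (posOn_of_tree symMI0 homMI0 _ _ MI0_r3aabaabaa) (posOn_of_tree symMI0 homMI0 _ _ MI0_r3aabaabab))) (posOn_of_tree symMI0 homMI0 _ _ MI0_r3aabaabb))))) (posOn_rot 1 (posOn_bisect (by decide +kernel) (posOn_rot 2 (posOn_bisect (by decide +kernel) (posOn_rot 2 (posOn_bisect (by decide +kernel) (posOn_of_tree symMI0 homMI0 _ _ MI0_r3aababaaa) (posOn_of_tree symMI0 homMI0 _ _ MI0_r3aababaab))) (posOn_of_tree symMI0 homMI0 _ _ MI0_r3aababab))) (posOn_rot 1 (posOn_bisect (by decide +kernel) (posOn_of_tree symMI0 homMI0 _ _ MI0_r3aababba) (posOn_rot 1 (posOn_bisect (by decide +kernel) (posOn_of_tree symMI0 homMI0 _ _ MI0_r3aababbba) (posOn_of_tree symMI0 homMI0 _ _ MI0_r3aababbbb))))))))) (posOn_rot 1 (posOn_bisect (by decide +kernel) (posOn_rot 2 (posOn_bisect (by decide +kernel) (posOn_rot 2 (posOn_bisect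 (by decide +kernel) (posOn_of_tree symMI0 homMI0 _ _ MI0_r3aabbaaa) (posOn_of_tree symMI0 homMI0 _ _ MI0_r3aabbaab))) (posOn_rot 1 (posOn_bisect (by decide +kernel) (posOn_of_tree symMI0 homMI0 _ _ MI0_r3aabbaba) (posOn_of_tree symMI0 homMI0 _ _ MI0_r3aabbabb))))) (posOn_rot 1 (posOn_bisect (by decide +kernel) (posOn_rot 2 (posOn_bisect (by decide +kernel) (posOn_of_tree symMI0 homMI0 _ _ MI0_r3aabbbaa) (posOn_rot 1 (posOn_bisect (by decide +kernel) (posOn_of_tree symMI0 homMI0 _ _ MI0_r3aabbbaba) (posOn_of_tree symMI0 homMI0 _ _ MI0_r3aabbbabb))))) (posOn_rot 1 (posOn_bisect (by decide +kernel) (posOn_rot 2 (posOn_bisect (by decide +kernel) (posOn_of_tree symMI0 homMI0 _ _ MI0_r3aabbbbaa) (posOn_of_tree symMI0 homMI0 _ _ MI0_r3aabbbbab))) (posOn_of_tree symMI0 homMI0 _ _ MI0_r3aabbbbb))))))))))) (posOn_rot 1 (posOn_bisect (by decide +kernel) (posOn_rot 2 (posOn_bisect (by decide +kernel) (posOn_rot 2 (posOn_bisect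 (by decide +kernel) (posOn_rot 2 (posOn_bisect (by decide +kernel) (posOn_of_tree symMI0 homMI0 _ _ MI0_r3abaaaa) (posOn_of_tree symMI0 homMI0 _ _ MI0_r3abaaab))) (posOn_rot 1 (posOn_bisect (by decide +kernel) (posOn_rot 2 (posOn_bisect (by decide +kernel) (posOn_of_tree symMI0 homMI0 _ _ MI0_r3abaabaa) (posOn_of_tree symMI0 homMI0 _ _ MI0_r3abaabab))) (posOn_of_tree symMI0 homMI0 _ _ MI0_r3abaabb))))) (posOn_rot 1 (posOn_bisect (by decide +kernel) (posOn_of_tree symMI0 homMI0 _ _ MI0_r3ababa) (posOn_rot 1 (posOn_bisect (by decide +kernel) (posOn_of_tree symMI0 homMI0 _ _ MI0_r3ababba) (posOn_of_tree symMI0 homMI0 _ _ MI0_r3ababbb))))))) (posOn_rot 1 (posOn_bisect (by decide +kernel) (posOn_rot 2 (posOn_bisect (by decide +kernel) (posOn_of_tree symMI0 homMI0 _ _ MI0_r3abbaa) (posOn_rot 1 (posOn_bisect (by decide +kernel) (posOn_of_tree symMI0 homMI0 _ _ MI0_r3abbaba) (posOn_of_tree symMI0 homMI0 _ _ MI0_r3abbabb)))))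 (posOn_rot 1 (posOn_bisect (by decide +kernel) (posOn_rot 2 (posOn_bisect (by decide +kernel) (posOn_of_tree symMI0 homMI0 _ _ MI0_r3abbbaa) (posOn_rot 1 (posOn_bisect (by decide +kernel) (posOn_of_tree symMI0 homMI0 _ _ MI0_r3abbbaba) (posOn_of_tree symMI0 homMI0 _ _ MI0_r3abbbabb))))) (posOn_of_tree symMI0 homMI0 _ _ MI0_r3abbbb))))))))) (posOn_rot 1 (posOn_bisect (by decide +kernel) (posOn_rot 2 (posOn_bisect (by decide +kernel) (posOn_rot 2 (posOn_bisect (by decide +kernel) (posOn_rot 2 (posOn_bisect (by decide +kernel) (posOn_rot 2 (posOn_bisect (by decide +kernel) (posOn_of_tree symMI0 homMI0 _ _ MI0_r3baaaaa) (posOn_rot 1 (posOn_bisect (by decide +kernel) (posOn_of_tree symMI0 homMI0 _ _ MI0_r3baaaaba) (posOn_of_tree symMI0 homMI0 _ _ MI0_r3baaaabb))))) (posOn_rot 1 (posOn_bisect (by decide +kernel) (posOn_rot 2 (posOn_bisect (by decide +kernel) (posOn_of_tree symMI0 homMI0 _ _ MI0_r3baaabaa) (posOn_of_tree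 symMI0 homMI0 _ _ MI0_r3baaabab))) (posOn_of_tree symMI0 homMI0 _ _ MI0_r3baaabb))))) (posOn_rot 1 (posOn_bisect (by decide +kernel) (posOn_rot 2 (posOn_bisect (by decide +kernel) (posOn_rot 2 (posOn_bisect (by decide +kernel) (posOn_of_tree symMI0 homMI0 _ _ MI0_r3baabaaa) (posOn_of_tree symMI0 homMI0 _ _ MI0_r3baabaab))) (posOn_of_tree symMI0 homMI0 _ _ MI0_r3baabab))) (posOn_rot 1 (posOn_bisect (by decide +kernel) (posOn_of_tree symMI0 homMI0 _ _ MI0_r3baabba) (posOn_rot 1 (posOn_bisect (by decide +kernel) (posOn_of_tree symMI0 homMI0 _ _ MI0_r3baabbba) (posOn_of_tree symMI0 homMI0 _ _ MI0_r3baabbbb))))))))) (posOn_rot 1 (posOn_bisect (by decide +kernel) (posOn_rot 2 (posOn_bisect (by decide +kernel) (posOn_rot 2 (posOn_bisect (by decide +kernel) (posOn_of_tree symMI0 homMI0 _ _ MI0_r3babaaa) (posOn_of_tree symMI0 homMI0 _ _ MI0_r3babaab))) (posOn_rot 1 (posOn_bisect (by decide +kernel) (posOn_of_tree symMI0 homMI0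 _ _ MI0_r3bababa) (posOn_of_tree symMI0 homMI0 _ _ MI0_r3bababb))))) (posOn_rot 1 (posOn_bisect (by decide +kernel) (posOn_rot 2 (posOn_bisect (by decide +kernel) (posOn_of_tree symMI0 homMI0 _ _ MI0_r3babbaa) (posOn_rot 1 (posOn_bisect (by decide +kernel) (posOn_of_tree symMI0 homMI0 _ _ MI0_r3babbaba) (posOn_of_tree symMI0 homMI0 _ _ MI0_r3babbabb))))) (posOn_rot 1 (posOn_bisect (by decide +kernel) (posOn_rot 2 (posOn_bisect (by decide +kernel) (posOn_of_tree symMI0 homMI0 _ _ MI0_r3babbbaa) (posOn_of_tree symMI0 homMI0 _ _ MI0_r3babbbab))) (posOn_of_tree symMI0 homMI0 _ _ MI0_r3babbbb))))))))) (posOn_rot 1 (posOn_bisect (by decide +kernel) (posOn_rot 2 (posOn_bisect (by decide +kernel) (posOn_rot 2 (posOn_bisect (by decide +kernel) (posOn_rot 2 (posOn_bisect (by decide +kernel) (posOn_rot 2 (posOn_bisect (by decide +kernel) (posOn_rot 2 (posOn_bisect (by decide +kernel) (posOn_of_tree symMI0 homMI0 _ _ MI0_r3bbaaaaaa)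 (posOn_of_tree symMI0 homMI0 _ _ MI0_r3bbaaaaab))) (posOn_of_tree symMI0 homMI0 _ _ MI0_r3bbaaaab))) (posOn_rot 1 (posOn_bisect (by decide +kernel) (posOn_of_tree symMI0 homMI0 _ _ MI0_r3bbaaaba) (posOn_rot 1 (posOn_bisect (by decide +kernel) (posOn_of_tree symMI0 homMI0 _ _ MI0_r3bbaaabba) (posOn_of_tree symMI0 homMI0 _ _ MI0_r3bbaaabbb))))))) (posOn_rot 1 (posOn_bisect (by decide +kernel) (posOn_of_tree symMI0 homMI0 _ _ MI0_r3bbaaba) (posOn_rot 1 (posOn_bisect (by decide +kernel) (posOn_rot 2 (posOn_bisect (by decide +kernel) (posOn_of_tree symMI0 homMI0 _ _ MI0_r3bbaabbaa) (posOn_of_tree symMI0 homMI0 _ _ MI0_r3bbaabbab))) (posOn_of_tree symMI0 homMI0 _ _ MI0_r3bbaabbb))))))) (posOn_rot 1 (posOn_bisect (by decide +kernel) (posOn_rot 2 (posOn_bisect (by decide +kernel) (posOn_rot 2 (posOn_bisect (by decide +kernel) (posOn_of_tree symMI0 homMI0 _ _ MI0_r3bbabaaa) (posOn_rot 1 (posOn_bisect (by decide +kernel) (posOn_of_tree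 symMI0 homMI0 _ _ MI0_r3bbabaaba) (posOn_of_tree symMI0 homMI0 _ _ MI0_r3bbabaabb))))) (posOn_rot 1 (posOn_bisect (by decide +kernel) (posOn_rot 2 (posOn_bisect (by decide +kernel) (posOn_of_tree symMI0 homMI0 _ _ MI0_r3bbababaa) (posOn_of_tree symMI0 homMI0 _ _ MI0_r3bbababab))) (posOn_of_tree symMI0 homMI0 _ _ MI0_r3bbababb))))) (posOn_rot 1 (posOn_bisect (by decide +kernel) (posOn_rot 2 (posOn_bisect (by decide +kernel) (posOn_rot 2 (posOn_bisect (by decide +kernel) (posOn_of_tree symMI0 homMI0 _ _ MI0_r3bbabbaaa) (posOn_of_tree symMI0 homMI0 _ _ MI0_r3bbabbaab))) (posOn_of_tree symMI0 homMI0 _ _ MI0_r3bbabbab))) (posOn_rot 1 (posOn_bisect (by decide +kernel) (posOn_of_tree symMI0 homMI0 _ _ MI0_r3bbabbba) (posOn_rot 1 (posOn_bisect (by decide +kernel) (posOn_of_tree symMI0 homMI0 _ _ MI0_r3bbabbbba) (posOn_of_tree symMI0 homMI0 _ _ MI0_r3bbabbbbb))))))))))) (posOn_rot 1 (posOn_bisect (by decide +kernel) (posOn_rot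 2 (posOn_bisect (by decide +kernel) (posOn_rot 2 (posOn_bisect (by decide +kernel) (posOn_of_tree symMI0 homMI0 _ _ MI0_r3bbbaaa) (posOn_rot 1 (posOn_bisect (by decide +kernel) (posOn_of_tree symMI0 homMI0 _ _ MI0_r3bbbaaba) (posOn_of_tree symMI0 homMI0 _ _ MI0_r3bbbaabb))))) (posOn_rot 1 (posOn_bisect (by decide +kernel) (posOn_rot 2 (posOn_bisect (by decide +kernel) (posOn_of_tree symMI0 homMI0 _ _ MI0_r3bbbabaa) (posOn_of_tree symMI0 homMI0 _ _ MI0_r3bbbabab))) (posOn_of_tree symMI0 homMI0 _ _ MI0_r3bbbabb))))) (posOn_rot 1 (posOn_bisect (by decide +kernel) (posOn_rot 2 (posOn_bisect (by decide +kernel) (posOn_rot 2 (posOn_bisect (by decide +kernel) (posOn_of_tree symMI0 homMI0 _ _ MI0_r3bbbbaaa) (posOn_of_tree symMI0 homMI0 _ _ MI0_r3bbbbaab))) (posOn_of_tree symMI0 homMI0 _ _ MI0_r3bbbbab))) (posOn_rot 1 (posOn_bisect (by decide +kernel) (posOn_rot 2 (posOn_bisect (by decide +kernel) (posOn_of_tree symMI0 homMI0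 _ _ MI0_r3bbbbbaa) (posOn_of_tree symMI0 homMI0 _ _ MI0_r3bbbbbab))) (posOn_rot 1 (posOn_bisect (by decide +kernel) (posOn_of_tree symMI0 homMI0 _ _ MI0_r3bbbbbba) (posOn_of_tree symMI0 homMI0 _ _ MI0_r3bbbbbbb)))))))))))))))

theorem nonnegI0 {X Y Z : ℝ} (hX : |X| ≤ Z) (hY : 0 ≤ Y) (hYZ : Y ≤ Z) (hZ : 0 < Z)
    (ξ : Fin 9 → ℝ) : 0 ≤ qf X Y Z SI0 ξ := by
  refine qf_nonneg wt0 (M := MI0) ?_ ?_ hX hY hYZ hZ ξ
  · intro i
    fin_cases i
    · exact posOnMI0_0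
    · exact posOnMI0_1
    · exact posOnMI0_2
    · exact posOnMI0_3
  · intro k
    fin_cases k
    · exact entryI0_0
    · exact entryI0_1
    · exact entryI0_2
    · exact entryI0_3
    · exact entryI0_4
    · exact entryI0_5
    · exact entryI0_6
    · exact entryI0_7
    · exact entryI0_8

end Vale.Agent.P252.General.Cert4
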