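import Vale.Agent.P252.Rigidity.General.Cert4.Trees.MI1_0
import Vale.Agent.P252.Rigidity.General.Cert4.Entries.EI1_0
import Vale.Agent.P252.Rigidity.General.Cert4.Region

/-! One block is nonnegative on its region, generated. -/

namespace Vale.Agent.P252.General.Cert4

open Vale.Agent.P100T.PosCheck Vale.Agent.P252.PolyPSD

theorem symMI1 : ∀ k l, MI1 k l = MI1 l k := by
  intro k l
  fin_cases k <;> fin_cases l <;> rfl

theorem homMI1 : ∀ k l, isHom 8 (MI1 k l) = true := by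
  decide +kernel

theorem posOnMI1_0 : PosOn MI1 (roots 0) :=
  (posOn_rot 1 (posOn_bisect (by decide +kernel) (posOn_rot 2 (posOn_bisect (by decide +kernel) (posOn_rot 2 (posOn_bisect (by decide +kernel) (posOn_of_tree symMI1 homMI1 _ _ MI1_r0aaa) (posOn_of_tree symMI1 homMI1 _ _ MI1_r0aab))) (posOn_of_tree symMI1 homMI1 _ _ MI1_r0ab))) (posOn_rot 1 (posOn_bisect (by decide +kernel) (posOn_of_tree symMI1 homMI1 _ _ MI1_r0ba) (posOn_of_tree symMI1 homMI1 _ _ MI1_r0bb)))))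

theorem posOnMI1_1 : PosOn MI1 (roots 1) :=
  (posOn_rot 2 (posOn_bisect (by decide +kernel) (posOn_rot 2 (posOn_bisect (by decide +kernel) (posOn_of_tree symMI1 homMI1 _ _ MI1_r1aa) (posOn_of_tree symMI1 homMI1 _ _ MI1_r1ab))) (posOn_of_tree symMI1 homMI1 _ _ MI1_r1b)))

theorem posOnMI1_2 : PosOn MI1 (roots 2) :=
  (posOn_rot 2 (posOn_bisect (by decide +kernel) (posOn_rot 2 (posOn_bisect (by decide +kernel) (posOn_rot 2 (posOn_bisect (by decide +kernel) (posOn_rot 2 (posOn_bisect (by decide +kernel) (posOn_of_tree symMI1 homMI1 _ _ MI1_r2aaaa) (posOn_rot 1 (posOn_bisect (by decide +kernel) (posOn_of_tree symMI1 homMI1 _ _ MI1_r2aaaba) (posOn_of_tree symMI1 homMI1 _ _ MI1_r2aaabb))))) (posOn_rot 1 (posOn_bisect (by decide +kernel) (posOn_rot 2 (posOn_bisect (by decide +kernel) (posOn_of_tree symMI1 homMI1 _ _ MI1_r2aabaa) (posOn_rot 1 (posOn_bisect (by decide +kernel) (posOn_rot 2 (posOn_bisect (by decide +kernel)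 (posOn_of_tree symMI1 homMI1 _ _ MI1_r2aababaa) (posOn_of_tree symMI1 homMI1 _ _ MI1_r2aababab))) (posOn_of_tree symMI1 homMI1 _ _ MI1_r2aababb))))) (posOn_rot 1 (posOn_bisect (by decide +kernel) (posOn_rot 2 (posOn_bisect (by decide +kernel) (posOn_rot 2 (posOn_bisect (by decide +kernel) (posOn_of_tree symMI1 homMI1 _ _ MI1_r2aabbaaa) (posOn_of_tree symMI1 homMI1 _ _ MI1_r2aabbaab))) (posOn_of_tree symMI1 homMI1 _ _ MI1_r2aabbab))) (posOn_rot 1 (posOn_bisect (by decide +kernel) (posOn_of_tree symMI1 homMI1 _ _ MI1_r2aabbba) (posOn_of_tree symMI1 homMI1 _ _ MI1_r2aabbbb))))))))) (posOn_rot 1 (posOn_bisect (by decide +kernel) (posOn_rot 2 (posOn_bisect (by decide +kernel) (posOn_rot 2 (posOn_bisect (by decide +kernel) (posOn_of_tree symMI1 homMI1 _ _ MI1_r2abaaa) (posOn_of_tree symMI1 homMI1 _ _ MI1_r2abaab))) (posOn_of_tree symMI1 homMI1 _ _ MI1_r2abab))) (posOn_rot 1 (posOn_bisect (by decide +kernel) (posOn_of_tree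 symMI1 homMI1 _ _ MI1_r2abba) (posOn_rot 1 (posOn_bisect (by decide +kernel) (posOn_rot 2 (posOn_bisect (by decide +kernel) (posOn_of_tree symMI1 homMI1 _ _ MI1_r2abbbaa) (posOn_of_tree symMI1 homMI1 _ _ MI1_r2abbbab))) (posOn_of_tree symMI1 homMI1 _ _ MI1_r2abbbb))))))))) (posOn_rot 1 (posOn_bisect (by decide +kernel) (posOn_rot 2 (posOn_bisect (by decide +kernel) (posOn_rot 2 (posOn_bisect (by decide +kernel) (posOn_of_tree symMI1 homMI1 _ _ MI1_r2baaa) (posOn_of_tree symMI1 homMI1 _ _ MI1_r2baab))) (posOn_of_tree symMI1 homMI1 _ _ MI1_r2bab))) (posOn_rot 1 (posOn_bisect (by decide +kernel) (posOn_rot 2 (posOn_bisect (by decide +kernel) (posOn_rot 2 (posOn_bisect (by decide +kernel) (posOn_of_tree symMI1 homMI1 _ _ MI1_r2bbaaa) (posOn_of_tree symMI1 homMI1 _ _ MI1_r2bbaab))) (posOn_rot 1 (posOn_bisect (by decide +kernel) (posOn_rot 2 (posOn_bisect (by decide +kernel) (posOn_of_tree symMI1 homMI1 _ _ MI1_r2bbabaa)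 (posOn_rot 1 (posOn_bisect (by decide +kernel) (posOn_of_tree symMI1 homMI1 _ _ MI1_r2bbababa) (posOn_of_tree symMI1 homMI1 _ _ MI1_r2bbababb))))) (posOn_of_tree symMI1 homMI1 _ _ MI1_r2bbabb))))) (posOn_rot 1 (posOn_bisect (by decide +kernel) (posOn_rot 2 (posOn_bisect (by decide +kernel) (posOn_of_tree symMI1 homMI1 _ _ MI1_r2bbbaa) (posOn_of_tree symMI1 homMI1 _ _ MI1_r2bbbab))) (posOn_of_tree symMI1 homMI1 _ _ MI1_r2bbbb)))))))))

theorem posOnMI1_3 : PosOn MI1 (roots 3) :=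
  (posOn_rot 0 (posOn_bisect (by decide +kernel) (posOn_rot 2 (posOn_bisect (by decide +kernel) (posOn_rot 2 (posOn_bisect (by decide +kernel) (posOn_of_tree symMI1 homMI1 _ _ MI1_r3aaa) (posOn_of_tree symMI1 homMI1 _ _ MI1_r3aab))) (posOn_of_tree symMI1 homMI1 _ _ MI1_r3ab))) (posOn_rot 1 (posOn_bisect (by decide +kernel) (posOn_rot 2 (posOn_bisect (by decide +kernel) (posOn_of_tree symMI1 homMI1 _ _ MI1_r3baa) (posOn_rot 1 (posOn_bisect (by decide +kernel) (posOn_of_tree symMI1 homMI1 _ _ MI1_r3baba) (posOn_of_tree symMI1 homMI1 _ _ MI1_r3babb))))) (posOn_rot 1 (posOn_bisect (by decide +kernel) (posOn_of_tree symMI1 homMI1 _ _ MI1_r3bba) (posOn_of_tree symMI1 homMI1 _ _ MI1_r3bbb)))))))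

theorem nonnegI1 {X Y Z : ℝ} (hX : |X| ≤ Z) (hY : 0 ≤ Y) (hYZ : Y ≤ Z) (hZ : 0 < Z)
    (ξ : Fin 5 → ℝ) : 0 ≤ qf X Y Z SI1 ξ := by
  refine qf_nonneg wt1 (M := MI1) ?_ ?_ hX hY hYZ hZ ξ
  · intro i
    fin_cases i
    · exact posOnMI1_0
    · exact posOnMI1_1
    · exact posOnMI1_2
    · exact posOnMI1_3
  · intro k
    fin_cases k
    · exact entryI1_0
    · exact entryI1_1
    · exact entryI1_2
    · exact entryI1_3
    · exact entryI1_4

end Vale.Agent.P252.General.Cert4
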