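import Vale.Agent.P252.Rigidity.General.Cert4.Trees.MI2_0
import Vale.Agent.P252.Rigidity.General.Cert4.Entries.EI2_0
import Vale.Agent.P252.Rigidity.General.Cert4.Region

/-! One block is nonnegative on its region, generated. -/

namespace Vale.Agent.P252.General.Cert4

open Vale.Agent.P100T.PosCheck Vale.Agent.P252.PolyPSD

theorem symMI2 : ∀ k l, MI2 k l = MI2 l k := by
  intro k l
  fin_cases k <;> fin_cases l <;> rfl

theorem homMI2 : ∀ k l, isHom 8 (MI2 k l) = true := by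
  decide +kernel

theorem posOnMI2_0 : PosOn MI2 (roots 0) :=
  (posOn_of_tree symMI2 homMI2 _ _ MI2_r0)

theorem posOnMI2_1 : PosOn MI2 (roots 1) :=
  (posOn_rot 2 (posOn_bisect (by decide +kernel) (posOn_rot 2 (posOn_bisect (by decide +kernel) (posOn_of_tree symMI2 homMI2 _ _ MI2_r1aa) (posOn_of_tree symMI2 homMI2 _ _ MI2_r1ab))) (posOn_of_tree symMI2 homMI2 _ _ MI2_r1b)))

theorem posOnMI2_2 : PosOn MI2 (roots 2) :=
  (posOn_rot 2 (posOn_bisect (by decide +kernel) (posOn_rot 2 (posOn_bisect (by decide +kernel) (posOn_rot 2 (posOn_bisect (by decide +kernel) (posOn_rot 2 (posOn_bisect (by decide +kernel) (posOn_of_tree symMI2 homMI2 _ _ MI2_r2aaaa) (posOn_of_tree symMI2 homMI2 _ _ MI2_r2aaab))) (posOn_rot 1 (posOn_bisect (by decide +kernel) (posOn_rot 2 (posOn_bisect (by decide +kernel) (posOn_of_tree symMI2 homMI2 _ _ MI2_r2aabaa) (posOn_of_tree symMI2 homMI2 _ _ MI2_r2aabab))) (posOn_of_tree symMI2 homMI2 _ _ MI2_r2aabb)))))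 (posOn_rot 1 (posOn_bisect (by decide +kernel) (posOn_of_tree symMI2 homMI2 _ _ MI2_r2aba) (posOn_rot 1 (posOn_bisect (by decide +kernel) (posOn_of_tree symMI2 homMI2 _ _ MI2_r2abba) (posOn_of_tree symMI2 homMI2 _ _ MI2_r2abbb))))))) (posOn_rot 1 (posOn_bisect (by decide +kernel) (posOn_of_tree symMI2 homMI2 _ _ MI2_r2ba) (posOn_rot 1 (posOn_bisect (by decide +kernel) (posOn_rot 2 (posOn_bisect (by decide +kernel) (posOn_of_tree symMI2 homMI2 _ _ MI2_r2bbaa) (posOn_rot 1 (posOn_bisect (by decide +kernel) (posOn_rot 2 (posOn_bisect (by decide +kernel) (posOn_of_tree symMI2 homMI2 _ _ MI2_r2bbabaa) (posOn_rot 1 (posOn_bisect (by decide +kernel) (posOn_of_tree symMI2 homMI2 _ _ MI2_r2bbababa) (posOn_of_tree symMI2 homMI2 _ _ MI2_r2bbababb))))) (posOn_of_tree symMI2 homMI2 _ _ MI2_r2bbabb))))) (posOn_of_tree symMI2 homMI2 _ _ MI2_r2bbb)))))))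

theorem posOnMI2_3 : PosOn MI2 (roots 3) :=
  (posOn_rot 0 (posOn_bisect (by decide +kernel) (posOn_of_tree symMI2 homMI2 _ _ MI2_r3a) (posOn_rot 1 (posOn_bisect (by decide +kernel) (posOn_rot 2 (posOn_bisect (by decide +kernel) (posOn_of_tree symMI2 homMI2 _ _ MI2_r3baa) (posOn_of_tree symMI2 homMI2 _ _ MI2_r3bab))) (posOn_of_tree symMI2 homMI2 _ _ MI2_r3bb)))))

theorem nonnegI2 {X Y Z : ℝ} (hX : |X| ≤ Z) (hY : 0 ≤ Y) (hYZ : Y ≤ Z) (hZ : 0 < Z)
    (ξ : Fin 3 → ℝ) : 0 ≤ qf X Y Z SI2 ξ := by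
  refine qf_nonneg wt2 (M := MI2) ?_ ?_ hX hY hYZ hZ ξ
  · intro i
    fin_cases i
    · exact posOnMI2_0
    · exact posOnMI2_1
    · exact posOnMI2_2
    · exact posOnMI2_3
  · intro k
    fin_cases k
    · exact entryI2_0
    · exact entryI2_1
    · exact entryI2_2

end Vale.Agent.P252.General.Cert4
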