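import Vale.Agent.P252.Rigidity.General.Cert4.Trees.MII0_0
import Vale.Agent.P252.Rigidity.General.Cert4.Trees.MII0_1
import Vale.Agent.P252.Rigidity.General.Cert4.Trees.MII0_2
import Vale.Agent.P252.Rigidity.General.Cert4.Trees.MII0_3
import Vale.Agent.P252.Rigidity.General.Cert4.Trees.MII0_4
import Vale.Agent.P252.Rigidity.General.Cert4.Trees.MII0_5
import Vale.Agent.P252.Rigidity.General.Cert4.Trees.MII0_6
import Vale.Agent.P252.Rigidity.General.Cert4.Trees.MII0_7
import Vale.Agent.P252.Rigidity.General.Cert4.Trees.MII0_8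
import Vale.Agent.P252.Rigidity.General.Cert4.Trees.MII0_9
import Vale.Agent.P252.Rigidity.General.Cert4.Trees.MII0_10
import Vale.Agent.P252.Rigidity.General.Cert4.Trees.MII0_11
import Vale.Agent.P252.Rigidity.General.Cert4.Trees.MII0_12
import Vale.Agent.P252.Rigidity.General.Cert4.Trees.MII0_13
import Vale.Agent.P252.Rigidity.General.Cert4.Trees.MII0_14
import Vale.Agent.P252.Rigidity.General.Cert4.Trees.MII0_15
import Vale.Agent.P252.Rigidity.General.Cert4.Trees.MII0_16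
import Vale.Agent.P252.Rigidity.General.Cert4.Trees.MII0_17
import Vale.Agent.P252.Rigidity.General.Cert4.Trees.MII0_18
import Vale.Agent.P252.Rigidity.General.Cert4.Trees.MII0_19
import Vale.Agent.P252.Rigidity.General.Cert4.Trees.MII0_20
import Vale.Agent.P252.Rigidity.General.Cert4.Trees.MII0_21
import Vale.Agent.P252.Rigidity.General.Cert4.Entries.EII0_0
import Vale.Agent.P252.Rigidity.General.Cert4.Entries.EII0_1
import Vale.Agent.P252.Rigidity.General.Cert4.Entries.EII0_2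
import Vale.Agent.P252.Rigidity.General.Cert4.Entries.EII0_3
import Vale.Agent.P252.Rigidity.General.Cert4.Entries.EII0_4
import Vale.Agent.P252.Rigidity.General.Cert4.Entries.EII0_5
import Vale.Agent.P252.Rigidity.General.Cert4.Entries.EII0_6
import Vale.Agent.P252.Rigidity.General.Cert4.Entries.EII0_7
import Vale.Agent.P252.Rigidity.General.Cert4.Entries.EII0_8
import Vale.Agent.P252.Rigidity.General.Cert4.Region

/-! One block is nonnegative on its region, generated. -/

namespace Vale.Agent.P252.General.Cert4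

open Vale.Agent.P100T.PosCheck Vale.Agent.P252.PolyPSD

theorem symMII0 : ∀ k l, MII0 k l = MII0 l k := by
  intro k l
  fin_cases k <;> fin_cases l <;> rfl

theorem homMII0 : ∀ k l, isHom 8 (MII0 k l) = true := by
  decide +kernel

theorem posOnMII0_0 : PosOn MII0 (roots 0) :=
  (posOn_rot 1 (posOn_bisect (by decide +kernel) (posOn_rot 2 (posOn_bisect (by decide +kernel) (posOn_rot 2 (posOn_bisect (by decide +kernel) (posOn_rot 2 (posOn_bisect (by decide +kernel) (posOn_rot 2 (posOn_bisect (by decide +kernel) (posOn_of_tree symMII0 homMII0 _ _ MII0_r0aaaaa) (posOn_of_tree symMII0 homMII0 _ _ MII0_r0aaaab))) (posOn_rot 1 (posOn_bisect (by decide +kernel) (posOn_of_tree symMII0 homMII0 _ _ MII0_r0aaaba) (posOn_of_tree symMII0 homMII0 _ _ MII0_r0aaabb))))) (posOn_rot 1 (posOn_bisect (by decide +kernel) (posOn_rot 2 (posOn_bisect (by decide +kernel) (posOn_of_tree symMII0 homMII0 _ _ MII0_r0aabaa) (posOn_rot 1 (posOn_bisect (by decide +kernel) (posOn_of_tree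 symMII0 homMII0 _ _ MII0_r0aababa) (posOn_of_tree symMII0 homMII0 _ _ MII0_r0aababb))))) (posOn_rot 1 (posOn_bisect (by decide +kernel) (posOn_of_tree symMII0 homMII0 _ _ MII0_r0aabba) (posOn_of_tree symMII0 homMII0 _ _ MII0_r0aabbb))))))) (posOn_rot 1 (posOn_bisect (by decide +kernel) (posOn_rot 2 (posOn_bisect (by decide +kernel) (posOn_rot 2 (posOn_bisect (by decide +kernel) (posOn_rot 2 (posOn_bisect (by decide +kernel) (posOn_of_tree symMII0 homMII0 _ _ MII0_r0abaaaa) (posOn_of_tree symMII0 homMII0 _ _ MII0_r0abaaab))) (posOn_rot 1 (posOn_bisect (by decide +kernel) (posOn_of_tree symMII0 homMII0 _ _ MII0_r0abaaba) (posOn_of_tree symMII0 homMII0 _ _ MII0_r0abaabb))))) (posOn_rot 1 (posOn_bisect (by decide +kernel) (posOn_rot 2 (posOn_bisect (by decide +kernel) (posOn_rot 2 (posOn_bisect (by decide +kernel) (posOn_rot 2 (posOn_bisect (by decide +kernel) (posOn_of_tree symMII0 homMII0 _ _ MII0_r0ababaaaa) (posOn_of_tree symMII0 homMII0 _ _ MII0_r0ababaaab)))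 (posOn_rot 1 (posOn_bisect (by decide +kernel) (posOn_of_tree symMII0 homMII0 _ _ MII0_r0ababaaba) (posOn_of_tree symMII0 homMII0 _ _ MII0_r0ababaabb))))) (posOn_rot 1 (posOn_bisect (by decide +kernel) (posOn_rot 2 (posOn_bisect (by decide +kernel) (posOn_rot 2 (posOn_bisect (by decide +kernel) (posOn_of_tree symMII0 homMII0 _ _ MII0_r0abababaaa) (posOn_of_tree symMII0 homMII0 _ _ MII0_r0abababaab))) (posOn_rot 1 (posOn_bisect (by decide +kernel) (posOn_of_tree symMII0 homMII0 _ _ MII0_r0ababababa) (posOn_of_tree symMII0 homMII0 _ _ MII0_r0ababababb))))) (posOn_rot 1 (posOn_bisect (by decide +kernel) (posOn_rot 2 (posOn_bisect (by decide +kernel) (posOn_of_tree symMII0 homMII0 _ _ MII0_r0abababbaa) (posOn_of_tree symMII0 homMII0 _ _ MII0_r0abababbab))) (posOn_rot 1 (posOn_bisect (by decide +kernel) (posOn_of_tree symMII0 homMII0 _ _ MII0_r0abababbba) (posOn_of_tree symMII0 homMII0 _ _ MII0_r0abababbbb))))))))) (posOn_rot 1 (posOn_bisect (by decide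 +kernel) (posOn_rot 2 (posOn_bisect (by decide +kernel) (posOn_rot 2 (posOn_bisect (by decide +kernel) (posOn_of_tree symMII0 homMII0 _ _ MII0_r0ababbaaa) (posOn_of_tree symMII0 homMII0 _ _ MII0_r0ababbaab))) (posOn_of_tree symMII0 homMII0 _ _ MII0_r0ababbab))) (posOn_rot 1 (posOn_bisect (by decide +kernel) (posOn_of_tree symMII0 homMII0 _ _ MII0_r0ababbba) (posOn_rot 1 (posOn_bisect (by decide +kernel) (posOn_of_tree symMII0 homMII0 _ _ MII0_r0ababbbba) (posOn_of_tree symMII0 homMII0 _ _ MII0_r0ababbbbb))))))))))) (posOn_rot 1 (posOn_bisect (by decide +kernel) (posOn_rot 2 (posOn_bisect (by decide +kernel) (posOn_rot 2 (posOn_bisect (by decide +kernel) (posOn_of_tree symMII0 homMII0 _ _ MII0_r0abbaaa) (posOn_of_tree symMII0 homMII0 _ _ MII0_r0abbaab))) (posOn_of_tree symMII0 homMII0 _ _ MII0_r0abbab))) (posOn_rot 1 (posOn_bisect (by decide +kernel) (posOn_of_tree symMII0 homMII0 _ _ MII0_r0abbba) (posOn_rot 1 (posOn_bisect (by decide +kernel)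 (posOn_of_tree symMII0 homMII0 _ _ MII0_r0abbbba) (posOn_of_tree symMII0 homMII0 _ _ MII0_r0abbbbb))))))))))) (posOn_rot 1 (posOn_bisect (by decide +kernel) (posOn_rot 2 (posOn_bisect (by decide +kernel) (posOn_rot 2 (posOn_bisect (by decide +kernel) (posOn_of_tree symMII0 homMII0 _ _ MII0_r0baaa) (posOn_rot 1 (posOn_bisect (by decide +kernel) (posOn_of_tree symMII0 homMII0 _ _ MII0_r0baaba) (posOn_of_tree symMII0 homMII0 _ _ MII0_r0baabb))))) (posOn_rot 1 (posOn_bisect (by decide +kernel) (posOn_rot 2 (posOn_bisect (by decide +kernel) (posOn_of_tree symMII0 homMII0 _ _ MII0_r0babaa) (posOn_of_tree symMII0 homMII0 _ _ MII0_r0babab))) (posOn_rot 1 (posOn_bisect (by decide +kernel) (posOn_of_tree symMII0 homMII0 _ _ MII0_r0babba) (posOn_of_tree symMII0 homMII0 _ _ MII0_r0babbb))))))) (posOn_rot 1 (posOn_bisect (by decide +kernel) (posOn_rot 2 (posOn_bisect (by decide +kernel) (posOn_rot 2 (posOn_bisect (by decide +kernel) (posOn_of_tree symMII0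 homMII0 _ _ MII0_r0bbaaa) (posOn_of_tree symMII0 homMII0 _ _ MII0_r0bbaab))) (posOn_rot 1 (posOn_bisect (by decide +kernel) (posOn_of_tree symMII0 homMII0 _ _ MII0_r0bbaba) (posOn_of_tree symMII0 homMII0 _ _ MII0_r0bbabb))))) (posOn_rot 1 (posOn_bisect (by decide +kernel) (posOn_rot 2 (posOn_bisect (by decide +kernel) (posOn_of_tree symMII0 homMII0 _ _ MII0_r0bbbaa) (posOn_of_tree symMII0 homMII0 _ _ MII0_r0bbbab))) (posOn_rot 1 (posOn_bisect (by decide +kernel) (posOn_of_tree symMII0 homMII0 _ _ MII0_r0bbbba) (posOn_of_tree symMII0 homMII0 _ _ MII0_r0bbbbb)))))))))))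

theorem posOnMII0_1 : PosOn MII0 (roots 1) :=
  (posOn_rot 2 (posOn_bisect (by decide +kernel) (posOn_rot 2 (posOn_bisect (by decide +kernel) (posOn_rot 2 (posOn_bisect (by decide +kernel) (posOn_rot 2 (posOn_bisect (by decide +kernel) (posOn_rot 2 (posOn_bisect (by decide +kernel) (posOn_rot 2 (posOn_bisect (by decide +kernel) (posOn_of_tree symMII0 homMII0 _ _ MII0_r1aaaaaa) (posOn_of_tree symMII0 homMII0 _ _ MII0_r1aaaaab))) (posOn_of_tree symMII0 homMII0 _ _ MII0_r1aaaab))) (posOn_rot 1 (posOn_bisect (by decide +kernel) (posOn_of_tree symMII0 homMII0 _ _ MII0_r1aaaba) (posOn_rot 1 (posOn_bisect (by decide +kernel) (posOn_of_tree symMII0 homMII0 _ _ MII0_r1aaabba) (posOn_of_tree symMII0 homMII0 _ _ MII0_r1aaabbb))))))) (posOn_rot 1 (posOn_bisect (by decide +kernel) (posOn_rot 2 (posOn_bisect (by decide +kernel) (posOn_rot 2 (posOn_bisect (by decide +kernel) (posOn_rot 2 (posOn_bisect (by decide +kernel) (posOn_of_tree symMII0 homMII0 _ _ MII0_r1aabaaaa)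 (posOn_of_tree symMII0 homMII0 _ _ MII0_r1aabaaab))) (posOn_of_tree symMII0 homMII0 _ _ MII0_r1aabaab))) (posOn_rot 1 (posOn_bisect (by decide +kernel) (posOn_rot 2 (posOn_bisect (by decide +kernel) (posOn_of_tree symMII0 homMII0 _ _ MII0_r1aababaa) (posOn_of_tree symMII0 homMII0 _ _ MII0_r1aababab))) (posOn_rot 1 (posOn_bisect (by decide +kernel) (posOn_of_tree symMII0 homMII0 _ _ MII0_r1aababba) (posOn_of_tree symMII0 homMII0 _ _ MII0_r1aababbb))))))) (posOn_rot 1 (posOn_bisect (by decide +kernel) (posOn_of_tree symMII0 homMII0 _ _ MII0_r1aabba) (posOn_rot 1 (posOn_bisect (by decide +kernel) (posOn_of_tree symMII0 homMII0 _ _ MII0_r1aabbba) (posOn_of_tree symMII0 homMII0 _ _ MII0_r1aabbbb))))))))) (posOn_rot 1 (posOn_bisect (by decide +kernel) (posOn_rot 2 (posOn_bisect (by decide +kernel) (posOn_rot 2 (posOn_bisect (by decide +kernel) (posOn_of_tree symMII0 homMII0 _ _ MII0_r1abaaa) (posOn_of_tree symMII0 homMII0 _ _ MII0_r1abaab))) (posOn_of_tree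 symMII0 homMII0 _ _ MII0_r1abab))) (posOn_rot 1 (posOn_bisect (by decide +kernel) (posOn_rot 2 (posOn_bisect (by decide +kernel) (posOn_of_tree symMII0 homMII0 _ _ MII0_r1abbaa) (posOn_of_tree symMII0 homMII0 _ _ MII0_r1abbab))) (posOn_rot 1 (posOn_bisect (by decide +kernel) (posOn_of_tree symMII0 homMII0 _ _ MII0_r1abbba) (posOn_of_tree symMII0 homMII0 _ _ MII0_r1abbbb))))))))) (posOn_rot 1 (posOn_bisect (by decide +kernel) (posOn_rot 2 (posOn_bisect (by decide +kernel) (posOn_rot 2 (posOn_bisect (by decide +kernel) (posOn_rot 2 (posOn_bisect (by decide +kernel) (posOn_rot 2 (posOn_bisect (by decide +kernel) (posOn_rot 2 (posOn_bisect (by decide +kernel) (posOn_rot 2 (posOn_bisect (by decide +kernel) (posOn_of_tree symMII0 homMII0 _ _ MII0_r1baaaaaaa) (posOn_of_tree symMII0 homMII0 _ _ MII0_r1baaaaaab))) (posOn_of_tree symMII0 homMII0 _ _ MII0_r1baaaaab))) (posOn_rot 1 (posOn_bisect (by decide +kernel) (posOn_of_tree symMII0 homMII0 _ _ MII0_r1baaaaba)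 (posOn_of_tree symMII0 homMII0 _ _ MII0_r1baaaabb))))) (posOn_rot 1 (posOn_bisect (by decide +kernel) (posOn_rot 2 (posOn_bisect (by decide +kernel) (posOn_rot 2 (posOn_bisect (by decide +kernel) (posOn_rot 2 (posOn_bisect (by decide +kernel) (posOn_of_tree symMII0 homMII0 _ _ MII0_r1baaabaaaa) (posOn_of_tree symMII0 homMII0 _ _ MII0_r1baaabaaab))) (posOn_of_tree symMII0 homMII0 _ _ MII0_r1baaabaab))) (posOn_rot 1 (posOn_bisect (by decide +kernel) (posOn_rot 2 (posOn_bisect (by decide +kernel) (posOn_of_tree symMII0 homMII0 _ _ MII0_r1baaababaa) (posOn_of_tree symMII0 homMII0 _ _ MII0_r1baaababab))) (posOn_rot 1 (posOn_bisect (by decide +kernel) (posOn_of_tree symMII0 homMII0 _ _ MII0_r1baaababba) (posOn_of_tree symMII0 homMII0 _ _ MII0_r1baaababbb))))))) (posOn_rot 1 (posOn_bisect (by decide +kernel) (posOn_of_tree symMII0 homMII0 _ _ MII0_r1baaabba) (posOn_rot 1 (posOn_bisect (by decide +kernel) (posOn_of_tree symMII0 homMII0 _ _ MII0_r1baaabbba)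 (posOn_of_tree symMII0 homMII0 _ _ MII0_r1baaabbbb))))))))) (posOn_rot 1 (posOn_bisect (by decide +kernel) (posOn_rot 2 (posOn_bisect (by decide +kernel) (posOn_of_tree symMII0 homMII0 _ _ MII0_r1baabaa) (posOn_of_tree symMII0 homMII0 _ _ MII0_r1baabab))) (posOn_rot 1 (posOn_bisect (by decide +kernel) (posOn_of_tree symMII0 homMII0 _ _ MII0_r1baabba) (posOn_of_tree symMII0 homMII0 _ _ MII0_r1baabbb))))))) (posOn_rot 1 (posOn_bisect (by decide +kernel) (posOn_rot 2 (posOn_bisect (by decide +kernel) (posOn_rot 2 (posOn_bisect (by decide +kernel) (posOn_rot 2 (posOn_bisect (by decide +kernel) (posOn_rot 2 (posOn_bisect (by decide +kernel) (posOn_rot 2 (posOn_bisect (by decide +kernel) (posOn_of_tree symMII0 homMII0 _ _ MII0_r1babaaaaaa) (posOn_of_tree symMII0 homMII0 _ _ MII0_r1babaaaaab))) (posOn_rot 1 (posOn_bisect (by decide +kernel) (posOn_of_tree symMII0 homMII0 _ _ MII0_r1babaaaaba) (posOn_of_tree symMII0 homMII0 _ _ MII0_r1babaaaabb))))) (posOn_rot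 1 (posOn_bisect (by decide +kernel) (posOn_rot 2 (posOn_bisect (by decide +kernel) (posOn_of_tree symMII0 homMII0 _ _ MII0_r1babaaabaa) (posOn_of_tree symMII0 homMII0 _ _ MII0_r1babaaabab))) (posOn_rot 1 (posOn_bisect (by decide +kernel) (posOn_of_tree symMII0 homMII0 _ _ MII0_r1babaaabba) (posOn_of_tree symMII0 homMII0 _ _ MII0_r1babaaabbb))))))) (posOn_rot 1 (posOn_bisect (by decide +kernel) (posOn_rot 2 (posOn_bisect (by decide +kernel) (posOn_of_tree symMII0 homMII0 _ _ MII0_r1babaabaa) (posOn_of_tree symMII0 homMII0 _ _ MII0_r1babaabab))) (posOn_rot 1 (posOn_bisect (by decide +kernel) (posOn_of_tree symMII0 homMII0 _ _ MII0_r1babaabba) (posOn_of_tree symMII0 homMII0 _ _ MII0_r1babaabbb))))))) (posOn_rot 1 (posOn_bisect (by decide +kernel) (posOn_rot 2 (posOn_bisect (by decide +kernel) (posOn_rot 2 (posOn_bisect (by decide +kernel) (posOn_rot 2 (posOn_bisect (by decide +kernel) (posOn_of_tree symMII0 homMII0 _ _ MII0_r1bababaaaa) (posOn_of_tree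 symMII0 homMII0 _ _ MII0_r1bababaaab))) (posOn_rot 1 (posOn_bisect (by decide +kernel) (posOn_of_tree symMII0 homMII0 _ _ MII0_r1bababaaba) (posOn_of_tree symMII0 homMII0 _ _ MII0_r1bababaabb))))) (posOn_rot 1 (posOn_bisect (by decide +kernel) (posOn_rot 2 (posOn_bisect (by decide +kernel) (posOn_of_tree symMII0 homMII0 _ _ MII0_r1babababaa) (posOn_of_tree symMII0 homMII0 _ _ MII0_r1babababab))) (posOn_rot 1 (posOn_bisect (by decide +kernel) (posOn_of_tree symMII0 homMII0 _ _ MII0_r1babababba) (posOn_of_tree symMII0 homMII0 _ _ MII0_r1babababbb))))))) (posOn_rot 1 (posOn_bisect (by decide +kernel) (posOn_rot 2 (posOn_bisect (by decide +kernel) (posOn_rot 2 (posOn_bisect (by decide +kernel) (posOn_of_tree symMII0 homMII0 _ _ MII0_r1bababbaaa) (posOn_of_tree symMII0 homMII0 _ _ MII0_r1bababbaab))) (posOn_rot 1 (posOn_bisect (by decide +kernel) (posOn_of_tree symMII0 homMII0 _ _ MII0_r1bababbaba) (posOn_of_tree symMII0 homMII0 _ _ MII0_r1bababbabb)))))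 (posOn_rot 1 (posOn_bisect (by decide +kernel) (posOn_rot 2 (posOn_bisect (by decide +kernel) (posOn_of_tree symMII0 homMII0 _ _ MII0_r1bababbbaa) (posOn_of_tree symMII0 homMII0 _ _ MII0_r1bababbbab))) (posOn_rot 1 (posOn_bisect (by decide +kernel) (posOn_of_tree symMII0 homMII0 _ _ MII0_r1bababbbba) (posOn_of_tree symMII0 homMII0 _ _ MII0_r1bababbbbb))))))))))) (posOn_rot 1 (posOn_bisect (by decide +kernel) (posOn_rot 2 (posOn_bisect (by decide +kernel) (posOn_rot 2 (posOn_bisect (by decide +kernel) (posOn_rot 2 (posOn_bisect (by decide +kernel) (posOn_rot 2 (posOn_bisect (by decide +kernel) (posOn_of_tree symMII0 homMII0 _ _ MII0_r1babbaaaaa) (posOn_of_tree symMII0 homMII0 _ _ MII0_r1babbaaaab))) (posOn_rot 1 (posOn_bisect (by decide +kernel) (posOn_of_tree symMII0 homMII0 _ _ MII0_r1babbaaaba) (posOn_of_tree symMII0 homMII0 _ _ MII0_r1babbaaabb))))) (posOn_rot 1 (posOn_bisect (by decide +kernel) (posOn_rot 2 (posOn_bisect (by decide +kernel)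 (posOn_of_tree symMII0 homMII0 _ _ MII0_r1babbaabaa) (posOn_of_tree symMII0 homMII0 _ _ MII0_r1babbaabab))) (posOn_rot 1 (posOn_bisect (by decide +kernel) (posOn_of_tree symMII0 homMII0 _ _ MII0_r1babbaabba) (posOn_of_tree symMII0 homMII0 _ _ MII0_r1babbaabbb))))))) (posOn_rot 1 (posOn_bisect (by decide +kernel) (posOn_rot 2 (posOn_bisect (by decide +kernel) (posOn_rot 2 (posOn_bisect (by decide +kernel) (posOn_of_tree symMII0 homMII0 _ _ MII0_r1babbabaaa) (posOn_of_tree symMII0 homMII0 _ _ MII0_r1babbabaab))) (posOn_rot 1 (posOn_bisect (by decide +kernel) (posOn_of_tree symMII0 homMII0 _ _ MII0_r1babbababa) (posOn_of_tree symMII0 homMII0 _ _ MII0_r1babbababb))))) (posOn_rot 1 (posOn_bisect (by decide +kernel) (posOn_rot 2 (posOn_bisect (by decide +kernel) (posOn_of_tree symMII0 homMII0 _ _ MII0_r1babbabbaa) (posOn_of_tree symMII0 homMII0 _ _ MII0_r1babbabbab))) (posOn_rot 1 (posOn_bisect (by decide +kernel) (posOn_of_tree symMII0 homMII0 _ _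 MII0_r1babbabbba) (posOn_of_tree symMII0 homMII0 _ _ MII0_r1babbabbbb))))))))) (posOn_rot 1 (posOn_bisect (by decide +kernel) (posOn_rot 2 (posOn_bisect (by decide +kernel) (posOn_rot 2 (posOn_bisect (by decide +kernel) (posOn_of_tree symMII0 homMII0 _ _ MII0_r1babbbaaa) (posOn_of_tree symMII0 homMII0 _ _ MII0_r1babbbaab))) (posOn_rot 1 (posOn_bisect (by decide +kernel) (posOn_of_tree symMII0 homMII0 _ _ MII0_r1babbbaba) (posOn_of_tree symMII0 homMII0 _ _ MII0_r1babbbabb))))) (posOn_rot 1 (posOn_bisect (by decide +kernel) (posOn_rot 2 (posOn_bisect (by decide +kernel) (posOn_rot 2 (posOn_bisect (by decide +kernel) (posOn_of_tree symMII0 homMII0 _ _ MII0_r1babbbbaaa) (posOn_of_tree symMII0 homMII0 _ _ MII0_r1babbbbaab))) (posOn_rot 1 (posOn_bisect (by decide +kernel) (posOn_of_tree symMII0 homMII0 _ _ MII0_r1babbbbaba) (posOn_of_tree symMII0 homMII0 _ _ MII0_r1babbbbabb))))) (posOn_rot 1 (posOn_bisect (by decide +kernel) (posOn_rot 2 (posOn_bisect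 (by decide +kernel) (posOn_of_tree symMII0 homMII0 _ _ MII0_r1babbbbbaa) (posOn_of_tree symMII0 homMII0 _ _ MII0_r1babbbbbab))) (posOn_rot 1 (posOn_bisect (by decide +kernel) (posOn_of_tree symMII0 homMII0 _ _ MII0_r1babbbbbba) (posOn_of_tree symMII0 homMII0 _ _ MII0_r1babbbbbbb))))))))))))))) (posOn_rot 1 (posOn_bisect (by decide +kernel) (posOn_rot 2 (posOn_bisect (by decide +kernel) (posOn_rot 2 (posOn_bisect (by decide +kernel) (posOn_rot 2 (posOn_bisect (by decide +kernel) (posOn_rot 2 (posOn_bisect (by decide +kernel) (posOn_of_tree symMII0 homMII0 _ _ MII0_r1bbaaaaa) (posOn_of_tree symMII0 homMII0 _ _ MII0_r1bbaaaab))) (posOn_rot 1 (posOn_bisect (by decide +kernel) (posOn_of_tree symMII0 homMII0 _ _ MII0_r1bbaaaba) (posOn_of_tree symMII0 homMII0 _ _ MII0_r1bbaaabb))))) (posOn_rot 1 (posOn_bisect (by decide +kernel) (posOn_rot 2 (posOn_bisect (by decide +kernel) (posOn_rot 2 (posOn_bisect (by decide +kernel) (posOn_of_tree symMII0 homMII0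 _ _ MII0_r1bbaabaaa) (posOn_of_tree symMII0 homMII0 _ _ MII0_r1bbaabaab))) (posOn_rot 1 (posOn_bisect (by decide +kernel) (posOn_rot 2 (posOn_bisect (by decide +kernel) (posOn_of_tree symMII0 homMII0 _ _ MII0_r1bbaababaa) (posOn_of_tree symMII0 homMII0 _ _ MII0_r1bbaababab))) (posOn_of_tree symMII0 homMII0 _ _ MII0_r1bbaababb))))) (posOn_rot 1 (posOn_bisect (by decide +kernel) (posOn_rot 2 (posOn_bisect (by decide +kernel) (posOn_of_tree symMII0 homMII0 _ _ MII0_r1bbaabbaa) (posOn_of_tree symMII0 homMII0 _ _ MII0_r1bbaabbab))) (posOn_rot 1 (posOn_bisect (by decide +kernel) (posOn_of_tree symMII0 homMII0 _ _ MII0_r1bbaabbba) (posOn_of_tree symMII0 homMII0 _ _ MII0_r1bbaabbbb))))))))) (posOn_rot 1 (posOn_bisect (by decide +kernel) (posOn_rot 2 (posOn_bisect (by decide +kernel) (posOn_rot 2 (posOn_bisect (by decide +kernel) (posOn_of_tree symMII0 homMII0 _ _ MII0_r1bbabaaa) (posOn_rot 1 (posOn_bisect (by decide +kernel) (posOn_of_tree symMII0 homMII0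 _ _ MII0_r1bbabaaba) (posOn_of_tree symMII0 homMII0 _ _ MII0_r1bbabaabb))))) (posOn_rot 1 (posOn_bisect (by decide +kernel) (posOn_rot 2 (posOn_bisect (by decide +kernel) (posOn_of_tree symMII0 homMII0 _ _ MII0_r1bbababaa) (posOn_of_tree symMII0 homMII0 _ _ MII0_r1bbababab))) (posOn_of_tree symMII0 homMII0 _ _ MII0_r1bbababb))))) (posOn_rot 1 (posOn_bisect (by decide +kernel) (posOn_rot 2 (posOn_bisect (by decide +kernel) (posOn_of_tree symMII0 homMII0 _ _ MII0_r1bbabbaa) (posOn_of_tree symMII0 homMII0 _ _ MII0_r1bbabbab))) (posOn_rot 1 (posOn_bisect (by decide +kernel) (posOn_of_tree symMII0 homMII0 _ _ MII0_r1bbabbba) (posOn_of_tree symMII0 homMII0 _ _ MII0_r1bbabbbb))))))))) (posOn_rot 1 (posOn_bisect (by decide +kernel) (posOn_rot 2 (posOn_bisect (by decide +kernel) (posOn_rot 2 (posOn_bisect (by decide +kernel) (posOn_of_tree symMII0 homMII0 _ _ MII0_r1bbbaaa) (posOn_of_tree symMII0 homMII0 _ _ MII0_r1bbbaab))) (posOn_rot 1 (posOn_bisect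 (by decide +kernel) (posOn_of_tree symMII0 homMII0 _ _ MII0_r1bbbaba) (posOn_of_tree symMII0 homMII0 _ _ MII0_r1bbbabb))))) (posOn_rot 1 (posOn_bisect (by decide +kernel) (posOn_rot 2 (posOn_bisect (by decide +kernel) (posOn_rot 2 (posOn_bisect (by decide +kernel) (posOn_rot 2 (posOn_bisect (by decide +kernel) (posOn_of_tree symMII0 homMII0 _ _ MII0_r1bbbbaaaa) (posOn_of_tree symMII0 homMII0 _ _ MII0_r1bbbbaaab))) (posOn_of_tree symMII0 homMII0 _ _ MII0_r1bbbbaab))) (posOn_rot 1 (posOn_bisect (by decide +kernel) (posOn_rot 2 (posOn_bisect (by decide +kernel) (posOn_of_tree symMII0 homMII0 _ _ MII0_r1bbbbabaa) (posOn_rot 1 (posOn_bisect (by decide +kernel) (posOn_of_tree symMII0 homMII0 _ _ MII0_r1bbbbababa) (posOn_of_tree symMII0 homMII0 _ _ MII0_r1bbbbababb))))) (posOn_rot 1 (posOn_bisect (by decide +kernel) (posOn_of_tree symMII0 homMII0 _ _ MII0_r1bbbbabba) (posOn_of_tree symMII0 homMII0 _ _ MII0_r1bbbbabbb))))))) (posOn_rot 1 (posOn_bisect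 (by decide +kernel) (posOn_rot 2 (posOn_bisect (by decide +kernel) (posOn_of_tree symMII0 homMII0 _ _ MII0_r1bbbbbaa) (posOn_of_tree symMII0 homMII0 _ _ MII0_r1bbbbbab))) (posOn_rot 1 (posOn_bisect (by decide +kernel) (posOn_of_tree symMII0 homMII0 _ _ MII0_r1bbbbbba) (posOn_of_tree symMII0 homMII0 _ _ MII0_r1bbbbbbb)))))))))))))))

theorem posOnMII0_2 : PosOn MII0 (roots 2) :=
  (posOn_rot 2 (posOn_bisect (by decide +kernel) (posOn_rot 2 (posOn_bisect (by decide +kernel) (posOn_rot 2 (posOn_bisect (by decide +kernel) (posOn_rot 2 (posOn_bisect (by decide +kernel) (posOn_rot 2 (posOn_bisect (by decide +kernel) (posOn_rot 2 (posOn_bisect (by decide +kernel) (posOn_rot 2 (posOn_bisect (by decide +kernel) (posOn_of_tree symMII0 homMII0 _ _ MII0_r2aaaaaaa) (posOn_of_tree symMII0 homMII0 _ _ MII0_r2aaaaaab))) (posOn_rot 1 (posOn_bisect (by decide +kernel) (posOn_of_tree symMII0 homMII0 _ _ MII0_r2aaaaaba) (posOn_of_tree symMII0 homMII0 _ _ MII0_r2aaaaabb)))))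 (posOn_rot 1 (posOn_bisect (by decide +kernel) (posOn_rot 2 (posOn_bisect (by decide +kernel) (posOn_of_tree symMII0 homMII0 _ _ MII0_r2aaaabaa) (posOn_of_tree symMII0 homMII0 _ _ MII0_r2aaaabab))) (posOn_rot 1 (posOn_bisect (by decide +kernel) (posOn_of_tree symMII0 homMII0 _ _ MII0_r2aaaabba) (posOn_of_tree symMII0 homMII0 _ _ MII0_r2aaaabbb))))))) (posOn_rot 1 (posOn_bisect (by decide +kernel) (posOn_rot 2 (posOn_bisect (by decide +kernel) (posOn_of_tree symMII0 homMII0 _ _ MII0_r2aaabaa) (posOn_rot 1 (posOn_bisect (by decide +kernel) (posOn_of_tree symMII0 homMII0 _ _ MII0_r2aaababa) (posOn_of_tree symMII0 homMII0 _ _ MII0_r2aaababb))))) (posOn_rot 1 (posOn_bisect (by decide +kernel) (posOn_rot 2 (posOn_bisect (by decide +kernel) (posOn_of_tree symMII0 homMII0 _ _ MII0_r2aaabbaa) (posOn_of_tree symMII0 homMII0 _ _ MII0_r2aaabbab))) (posOn_rot 1 (posOn_bisect (by decide +kernel) (posOn_of_tree symMII0 homMII0 _ _ MII0_r2aaabbba) (posOn_of_tree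 symMII0 homMII0 _ _ MII0_r2aaabbbb))))))))) (posOn_rot 1 (posOn_bisect (by decide +kernel) (posOn_rot 2 (posOn_bisect (by decide +kernel) (posOn_rot 2 (posOn_bisect (by decide +kernel) (posOn_rot 2 (posOn_bisect (by decide +kernel) (posOn_rot 2 (posOn_bisect (by decide +kernel) (posOn_of_tree symMII0 homMII0 _ _ MII0_r2aabaaaaa) (posOn_rot 1 (posOn_bisect (by decide +kernel) (posOn_of_tree symMII0 homMII0 _ _ MII0_r2aabaaaaba) (posOn_of_tree symMII0 homMII0 _ _ MII0_r2aabaaaabb))))) (posOn_rot 1 (posOn_bisect (by decide +kernel) (posOn_rot 2 (posOn_bisect (by decide +kernel) (posOn_of_tree symMII0 homMII0 _ _ MII0_r2aabaaabaa) (posOn_of_tree symMII0 homMII0 _ _ MII0_r2aabaaabab))) (posOn_rot 1 (posOn_bisect (by decide +kernel) (posOn_of_tree symMII0 homMII0 _ _ MII0_r2aabaaabba) (posOn_of_tree symMII0 homMII0 _ _ MII0_r2aabaaabbb))))))) (posOn_rot 1 (posOn_bisect (by decide +kernel) (posOn_rot 2 (posOn_bisect (by decide +kernel) (posOn_of_tree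 symMII0 homMII0 _ _ MII0_r2aabaabaa) (posOn_of_tree symMII0 homMII0 _ _ MII0_r2aabaabab))) (posOn_rot 1 (posOn_bisect (by decide +kernel) (posOn_rot 2 (posOn_bisect (by decide +kernel) (posOn_of_tree symMII0 homMII0 _ _ MII0_r2aabaabbaa) (posOn_of_tree symMII0 homMII0 _ _ MII0_r2aabaabbab))) (posOn_rot 1 (posOn_bisect (by decide +kernel) (posOn_of_tree symMII0 homMII0 _ _ MII0_r2aabaabbba) (posOn_of_tree symMII0 homMII0 _ _ MII0_r2aabaabbbb))))))))) (posOn_rot 1 (posOn_bisect (by decide +kernel) (posOn_rot 2 (posOn_bisect (by decide +kernel) (posOn_rot 2 (posOn_bisect (by decide +kernel) (posOn_rot 2 (posOn_bisect (by decide +kernel) (posOn_rot 2 (posOn_bisect (by decide +kernel) (posOn_of_tree symMII0 homMII0 _ _ MII0_r2aababaaaaa) (posOn_of_tree symMII0 homMII0 _ _ MII0_r2aababaaaab))) (posOn_of_tree symMII0 homMII0 _ _ MII0_r2aababaaab))) (posOn_rot 1 (posOn_bisect (by decide +kernel) (posOn_of_tree symMII0 homMII0 _ _ MII0_r2aababaaba) (posOn_rot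 1 (posOn_bisect (by decide +kernel) (posOn_of_tree symMII0 homMII0 _ _ MII0_r2aababaabba) (posOn_of_tree symMII0 homMII0 _ _ MII0_r2aababaabbb))))))) (posOn_rot 1 (posOn_bisect (by decide +kernel) (posOn_rot 2 (posOn_bisect (by decide +kernel) (posOn_of_tree symMII0 homMII0 _ _ MII0_r2aabababaa) (posOn_rot 1 (posOn_bisect (by decide +kernel) (posOn_of_tree symMII0 homMII0 _ _ MII0_r2aababababa) (posOn_of_tree symMII0 homMII0 _ _ MII0_r2aababababb))))) (posOn_rot 1 (posOn_bisect (by decide +kernel) (posOn_rot 2 (posOn_bisect (by decide +kernel) (posOn_of_tree symMII0 homMII0 _ _ MII0_r2aabababbaa) (posOn_of_tree symMII0 homMII0 _ _ MII0_r2aabababbab))) (posOn_of_tree symMII0 homMII0 _ _ MII0_r2aabababbb))))))) (posOn_rot 1 (posOn_bisect (by decide +kernel) (posOn_rot 2 (posOn_bisect (by decide +kernel) (posOn_rot 2 (posOn_bisect (by decide +kernel) (posOn_of_tree symMII0 homMII0 _ _ MII0_r2aababbaaa) (posOn_of_tree symMII0 homMII0 _ _ MII0_r2aababbaab)))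 (posOn_rot 1 (posOn_bisect (by decide +kernel) (posOn_of_tree symMII0 homMII0 _ _ MII0_r2aababbaba) (posOn_of_tree symMII0 homMII0 _ _ MII0_r2aababbabb))))) (posOn_rot 1 (posOn_bisect (by decide +kernel) (posOn_rot 2 (posOn_bisect (by decide +kernel) (posOn_of_tree symMII0 homMII0 _ _ MII0_r2aababbbaa) (posOn_of_tree symMII0 homMII0 _ _ MII0_r2aababbbab))) (posOn_rot 1 (posOn_bisect (by decide +kernel) (posOn_of_tree symMII0 homMII0 _ _ MII0_r2aababbbba) (posOn_rot 1 (posOn_bisect (by decide +kernel) (posOn_of_tree symMII0 homMII0 _ _ MII0_r2aababbbbba) (posOn_of_tree symMII0 homMII0 _ _ MII0_r2aababbbbbb))))))))))))) (posOn_rot 1 (posOn_bisect (by decide +kernel) (posOn_rot 2 (posOn_bisect (by decide +kernel) (posOn_rot 2 (posOn_bisect (by decide +kernel) (posOn_rot 2 (posOn_bisect (by decide +kernel) (posOn_rot 2 (posOn_bisect (by decide +kernel) (posOn_of_tree symMII0 homMII0 _ _ MII0_r2aabbaaaaa) (posOn_of_tree symMII0 homMII0 _ _ MII0_r2aabbaaaab)))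 (posOn_of_tree symMII0 homMII0 _ _ MII0_r2aabbaaab))) (posOn_rot 1 (posOn_bisect (by decide +kernel) (posOn_rot 2 (posOn_bisect (by decide +kernel) (posOn_of_tree symMII0 homMII0 _ _ MII0_r2aabbaabaa) (posOn_of_tree symMII0 homMII0 _ _ MII0_r2aabbaabab))) (posOn_rot 1 (posOn_bisect (by decide +kernel) (posOn_of_tree symMII0 homMII0 _ _ MII0_r2aabbaabba) (posOn_of_tree symMII0 homMII0 _ _ MII0_r2aabbaabbb))))))) (posOn_rot 1 (posOn_bisect (by decide +kernel) (posOn_rot 2 (posOn_bisect (by decide +kernel) (posOn_of_tree symMII0 homMII0 _ _ MII0_r2aabbabaa) (posOn_of_tree symMII0 homMII0 _ _ MII0_r2aabbabab))) (posOn_rot 1 (posOn_bisect (by decide +kernel) (posOn_of_tree symMII0 homMII0 _ _ MII0_r2aabbabba) (posOn_of_tree symMII0 homMII0 _ _ MII0_r2aabbabbb))))))) (posOn_rot 1 (posOn_bisect (by decide +kernel) (posOn_rot 2 (posOn_bisect (by decide +kernel) (posOn_rot 2 (posOn_bisect (by decide +kernel) (posOn_of_tree symMII0 homMII0 _ _ MII0_r2aabbbaaa)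 (posOn_of_tree symMII0 homMII0 _ _ MII0_r2aabbbaab))) (posOn_rot 1 (posOn_bisect (by decide +kernel) (posOn_of_tree symMII0 homMII0 _ _ MII0_r2aabbbaba) (posOn_of_tree symMII0 homMII0 _ _ MII0_r2aabbbabb))))) (posOn_rot 1 (posOn_bisect (by decide +kernel) (posOn_rot 2 (posOn_bisect (by decide +kernel) (posOn_rot 2 (posOn_bisect (by decide +kernel) (posOn_of_tree symMII0 homMII0 _ _ MII0_r2aabbbbaaa) (posOn_of_tree symMII0 homMII0 _ _ MII0_r2aabbbbaab))) (posOn_rot 1 (posOn_bisect (by decide +kernel) (posOn_of_tree symMII0 homMII0 _ _ MII0_r2aabbbbaba) (posOn_of_tree symMII0 homMII0 _ _ MII0_r2aabbbbabb))))) (posOn_rot 1 (posOn_bisect (by decide +kernel) (posOn_of_tree symMII0 homMII0 _ _ MII0_r2aabbbbba) (posOn_rot 1 (posOn_bisect (by decide +kernel) (posOn_of_tree symMII0 homMII0 _ _ MII0_r2aabbbbbba) (posOn_of_tree symMII0 homMII0 _ _ MII0_r2aabbbbbbb))))))))))))))) (posOn_rot 1 (posOn_bisect (by decide +kernel) (posOn_rot 2 (posOn_bisect (by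 decide +kernel) (posOn_rot 2 (posOn_bisect (by decide +kernel) (posOn_rot 2 (posOn_bisect (by decide +kernel) (posOn_of_tree symMII0 homMII0 _ _ MII0_r2abaaaa) (posOn_of_tree symMII0 homMII0 _ _ MII0_r2abaaab))) (posOn_rot 1 (posOn_bisect (by decide +kernel) (posOn_rot 2 (posOn_bisect (by decide +kernel) (posOn_of_tree symMII0 homMII0 _ _ MII0_r2abaabaa) (posOn_of_tree symMII0 homMII0 _ _ MII0_r2abaabab))) (posOn_of_tree symMII0 homMII0 _ _ MII0_r2abaabb))))) (posOn_rot 1 (posOn_bisect (by decide +kernel) (posOn_rot 2 (posOn_bisect (by decide +kernel) (posOn_of_tree symMII0 homMII0 _ _ MII0_r2ababaa) (posOn_of_tree symMII0 homMII0 _ _ MII0_r2ababab))) (posOn_rot 1 (posOn_bisect (by decide +kernel) (posOn_of_tree symMII0 homMII0 _ _ MII0_r2ababba) (posOn_of_tree symMII0 homMII0 _ _ MII0_r2ababbb))))))) (posOn_rot 1 (posOn_bisect (by decide +kernel) (posOn_rot 2 (posOn_bisect (by decide +kernel) (posOn_rot 2 (posOn_bisect (by decide +kernel) (posOn_rot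 2 (posOn_bisect (by decide +kernel) (posOn_of_tree symMII0 homMII0 _ _ MII0_r2abbaaaa) (posOn_of_tree symMII0 homMII0 _ _ MII0_r2abbaaab))) (posOn_of_tree symMII0 homMII0 _ _ MII0_r2abbaab))) (posOn_rot 1 (posOn_bisect (by decide +kernel) (posOn_of_tree symMII0 homMII0 _ _ MII0_r2abbaba) (posOn_of_tree symMII0 homMII0 _ _ MII0_r2abbabb))))) (posOn_rot 1 (posOn_bisect (by decide +kernel) (posOn_rot 2 (posOn_bisect (by decide +kernel) (posOn_of_tree symMII0 homMII0 _ _ MII0_r2abbbaa) (posOn_of_tree symMII0 homMII0 _ _ MII0_r2abbbab))) (posOn_rot 1 (posOn_bisect (by decide +kernel) (posOn_of_tree symMII0 homMII0 _ _ MII0_r2abbbba) (posOn_of_tree symMII0 homMII0 _ _ MII0_r2abbbbb))))))))))) (posOn_rot 1 (posOn_bisect (by decide +kernel) (posOn_rot 2 (posOn_bisect (by decide +kernel) (posOn_rot 2 (posOn_bisect (by decide +kernel) (posOn_rot 2 (posOn_bisect (by decide +kernel) (posOn_rot 2 (posOn_bisect (by decide +kernel) (posOn_of_tree symMII0 homMII0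 _ _ MII0_r2baaaaa) (posOn_of_tree symMII0 homMII0 _ _ MII0_r2baaaab))) (posOn_rot 1 (posOn_bisect (by decide +kernel) (posOn_rot 2 (posOn_bisect (by decide +kernel) (posOn_of_tree symMII0 homMII0 _ _ MII0_r2baaabaa) (posOn_of_tree symMII0 homMII0 _ _ MII0_r2baaabab))) (posOn_of_tree symMII0 homMII0 _ _ MII0_r2baaabb))))) (posOn_rot 1 (posOn_bisect (by decide +kernel) (posOn_rot 2 (posOn_bisect (by decide +kernel) (posOn_of_tree symMII0 homMII0 _ _ MII0_r2baabaa) (posOn_of_tree symMII0 homMII0 _ _ MII0_r2baabab))) (posOn_rot 1 (posOn_bisect (by decide +kernel) (posOn_of_tree symMII0 homMII0 _ _ MII0_r2baabba) (posOn_of_tree symMII0 homMII0 _ _ MII0_r2baabbb))))))) (posOn_rot 1 (posOn_bisect (by decide +kernel) (posOn_rot 2 (posOn_bisect (by decide +kernel) (posOn_rot 2 (posOn_bisect (by decide +kernel) (posOn_of_tree symMII0 homMII0 _ _ MII0_r2babaaa) (posOn_of_tree symMII0 homMII0 _ _ MII0_r2babaab))) (posOn_rot 1 (posOn_bisect (by decide +kernel)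 (posOn_rot 2 (posOn_bisect (by decide +kernel) (posOn_of_tree symMII0 homMII0 _ _ MII0_r2bababaa) (posOn_of_tree symMII0 homMII0 _ _ MII0_r2bababab))) (posOn_of_tree symMII0 homMII0 _ _ MII0_r2bababb))))) (posOn_rot 1 (posOn_bisect (by decide +kernel) (posOn_rot 2 (posOn_bisect (by decide +kernel) (posOn_of_tree symMII0 homMII0 _ _ MII0_r2babbaa) (posOn_of_tree symMII0 homMII0 _ _ MII0_r2babbab))) (posOn_rot 1 (posOn_bisect (by decide +kernel) (posOn_of_tree symMII0 homMII0 _ _ MII0_r2babbba) (posOn_of_tree symMII0 homMII0 _ _ MII0_r2babbbb))))))))) (posOn_rot 1 (posOn_bisect (by decide +kernel) (posOn_rot 2 (posOn_bisect (by decide +kernel) (posOn_rot 2 (posOn_bisect (by decide +kernel) (posOn_rot 2 (posOn_bisect (by decide +kernel) (posOn_rot 2 (posOn_bisect (by decide +kernel) (posOn_of_tree symMII0 homMII0 _ _ MII0_r2bbaaaaa) (posOn_rot 1 (posOn_bisect (by decide +kernel) (posOn_of_tree symMII0 homMII0 _ _ MII0_r2bbaaaaba) (posOn_of_tree symMII0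 homMII0 _ _ MII0_r2bbaaaabb))))) (posOn_rot 1 (posOn_bisect (by decide +kernel) (posOn_rot 2 (posOn_bisect (by decide +kernel) (posOn_of_tree symMII0 homMII0 _ _ MII0_r2bbaaabaa) (posOn_of_tree symMII0 homMII0 _ _ MII0_r2bbaaabab))) (posOn_of_tree symMII0 homMII0 _ _ MII0_r2bbaaabb))))) (posOn_rot 1 (posOn_bisect (by decide +kernel) (posOn_rot 2 (posOn_bisect (by decide +kernel) (posOn_of_tree symMII0 homMII0 _ _ MII0_r2bbaabaa) (posOn_of_tree symMII0 homMII0 _ _ MII0_r2bbaabab))) (posOn_rot 1 (posOn_bisect (by decide +kernel) (posOn_of_tree symMII0 homMII0 _ _ MII0_r2bbaabba) (posOn_of_tree symMII0 homMII0 _ _ MII0_r2bbaabbb))))))) (posOn_rot 1 (posOn_bisect (by decide +kernel) (posOn_rot 2 (posOn_bisect (by decide +kernel) (posOn_rot 2 (posOn_bisect (by decide +kernel) (posOn_rot 2 (posOn_bisect (by decide +kernel) (posOn_rot 2 (posOn_bisect (by decide +kernel) (posOn_of_tree symMII0 homMII0 _ _ MII0_r2bbabaaaaa) (posOn_rot 1 (posOn_bisect (by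 decide +kernel) (posOn_of_tree symMII0 homMII0 _ _ MII0_r2bbabaaaaba) (posOn_of_tree symMII0 homMII0 _ _ MII0_r2bbabaaaabb))))) (posOn_rot 1 (posOn_bisect (by decide +kernel) (posOn_rot 2 (posOn_bisect (by decide +kernel) (posOn_of_tree symMII0 homMII0 _ _ MII0_r2bbabaaabaa) (posOn_of_tree symMII0 homMII0 _ _ MII0_r2bbabaaabab))) (posOn_of_tree symMII0 homMII0 _ _ MII0_r2bbabaaabb))))) (posOn_rot 1 (posOn_bisect (by decide +kernel) (posOn_rot 2 (posOn_bisect (by decide +kernel) (posOn_of_tree symMII0 homMII0 _ _ MII0_r2bbabaabaa) (posOn_of_tree symMII0 homMII0 _ _ MII0_r2bbabaabab))) (posOn_rot 1 (posOn_bisect (by decide +kernel) (posOn_of_tree symMII0 homMII0 _ _ MII0_r2bbabaabba) (posOn_of_tree symMII0 homMII0 _ _ MII0_r2bbabaabbb))))))) (posOn_rot 1 (posOn_bisect (by decide +kernel) (posOn_rot 2 (posOn_bisect (by decide +kernel) (posOn_rot 2 (posOn_bisect (by decide +kernel) (posOn_rot 2 (posOn_bisect (by decide +kernel) (posOn_rot 2 (posOn_bisect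 (by decide +kernel) (posOn_of_tree symMII0 homMII0 _ _ MII0_r2bbababaaaaa) (posOn_of_tree symMII0 homMII0 _ _ MII0_r2bbababaaaab))) (posOn_of_tree symMII0 homMII0 _ _ MII0_r2bbababaaab))) (posOn_rot 1 (posOn_bisect (by decide +kernel) (posOn_of_tree symMII0 homMII0 _ _ MII0_r2bbababaaba) (posOn_rot 1 (posOn_bisect (by decide +kernel) (posOn_of_tree symMII0 homMII0 _ _ MII0_r2bbababaabba) (posOn_of_tree symMII0 homMII0 _ _ MII0_r2bbababaabbb))))))) (posOn_rot 1 (posOn_bisect (by decide +kernel) (posOn_rot 2 (posOn_bisect (by decide +kernel) (posOn_rot 2 (posOn_bisect (by decide +kernel) (posOn_of_tree symMII0 homMII0 _ _ MII0_r2bbabababaaa) (posOn_of_tree symMII0 homMII0 _ _ MII0_r2bbabababaab))) (posOn_of_tree symMII0 homMII0 _ _ MII0_r2bbabababab))) (posOn_rot 1 (posOn_bisect (by decide +kernel) (posOn_of_tree symMII0 homMII0 _ _ MII0_r2bbabababba) (posOn_rot 1 (posOn_bisect (by decide +kernel) (posOn_of_tree symMII0 homMII0 _ _ MII0_r2bbabababbba)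 (posOn_of_tree symMII0 homMII0 _ _ MII0_r2bbabababbbb))))))))) (posOn_rot 1 (posOn_bisect (by decide +kernel) (posOn_rot 2 (posOn_bisect (by decide +kernel) (posOn_of_tree symMII0 homMII0 _ _ MII0_r2bbababbaa) (posOn_rot 1 (posOn_bisect (by decide +kernel) (posOn_of_tree symMII0 homMII0 _ _ MII0_r2bbababbaba) (posOn_of_tree symMII0 homMII0 _ _ MII0_r2bbababbabb))))) (posOn_rot 1 (posOn_bisect (by decide +kernel) (posOn_rot 2 (posOn_bisect (by decide +kernel) (posOn_of_tree symMII0 homMII0 _ _ MII0_r2bbababbbaa) (posOn_of_tree symMII0 homMII0 _ _ MII0_r2bbababbbab))) (posOn_of_tree symMII0 homMII0 _ _ MII0_r2bbababbbb))))))))) (posOn_rot 1 (posOn_bisect (by decide +kernel) (posOn_rot 2 (posOn_bisect (by decide +kernel) (posOn_rot 2 (posOn_bisect (by decide +kernel) (posOn_of_tree symMII0 homMII0 _ _ MII0_r2bbabbaaa) (posOn_of_tree symMII0 homMII0 _ _ MII0_r2bbabbaab))) (posOn_rot 1 (posOn_bisect (by decide +kernel) (posOn_of_tree symMII0 homMII0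 _ _ MII0_r2bbabbaba) (posOn_of_tree symMII0 homMII0 _ _ MII0_r2bbabbabb))))) (posOn_rot 1 (posOn_bisect (by decide +kernel) (posOn_rot 2 (posOn_bisect (by decide +kernel) (posOn_of_tree symMII0 homMII0 _ _ MII0_r2bbabbbaa) (posOn_of_tree symMII0 homMII0 _ _ MII0_r2bbabbbab))) (posOn_rot 1 (posOn_bisect (by decide +kernel) (posOn_rot 2 (posOn_bisect (by decide +kernel) (posOn_of_tree symMII0 homMII0 _ _ MII0_r2bbabbbbaa) (posOn_of_tree symMII0 homMII0 _ _ MII0_r2bbabbbbab))) (posOn_rot 1 (posOn_bisect (by decide +kernel) (posOn_of_tree symMII0 homMII0 _ _ MII0_r2bbabbbbba) (posOn_of_tree symMII0 homMII0 _ _ MII0_r2bbabbbbbb))))))))))))) (posOn_rot 1 (posOn_bisect (by decide +kernel) (posOn_rot 2 (posOn_bisect (by decide +kernel) (posOn_rot 2 (posOn_bisect (by decide +kernel) (posOn_rot 2 (posOn_bisect (by decide +kernel) (posOn_of_tree symMII0 homMII0 _ _ MII0_r2bbbaaaa) (posOn_of_tree symMII0 homMII0 _ _ MII0_r2bbbaaab))) (posOn_rot 1 (posOn_bisect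 (by decide +kernel) (posOn_of_tree symMII0 homMII0 _ _ MII0_r2bbbaaba) (posOn_of_tree symMII0 homMII0 _ _ MII0_r2bbbaabb))))) (posOn_rot 1 (posOn_bisect (by decide +kernel) (posOn_of_tree symMII0 homMII0 _ _ MII0_r2bbbaba) (posOn_of_tree symMII0 homMII0 _ _ MII0_r2bbbabb))))) (posOn_rot 1 (posOn_bisect (by decide +kernel) (posOn_rot 2 (posOn_bisect (by decide +kernel) (posOn_of_tree symMII0 homMII0 _ _ MII0_r2bbbbaa) (posOn_rot 1 (posOn_bisect (by decide +kernel) (posOn_of_tree symMII0 homMII0 _ _ MII0_r2bbbbaba) (posOn_of_tree symMII0 homMII0 _ _ MII0_r2bbbbabb))))) (posOn_rot 1 (posOn_bisect (by decide +kernel) (posOn_rot 2 (posOn_bisect (by decide +kernel) (posOn_of_tree symMII0 homMII0 _ _ MII0_r2bbbbbaa) (posOn_of_tree symMII0 homMII0 _ _ MII0_r2bbbbbab))) (posOn_rot 1 (posOn_bisect (by decide +kernel) (posOn_of_tree symMII0 homMII0 _ _ MII0_r2bbbbbba) (posOn_of_tree symMII0 homMII0 _ _ MII0_r2bbbbbbb)))))))))))))))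

theorem posOnMII0_3 : PosOn MII0 (roots 3) :=
  (posOn_rot 0 (posOn_bisect (by decide +kernel) (posOn_rot 2 (posOn_bisect (by decide +kernel) (posOn_rot 2 (posOn_bisect (by decide +kernel) (posOn_rot 2 (posOn_bisect (by decide +kernel) (posOn_rot 2 (posOn_bisect (by decide +kernel) (posOn_rot 2 (posOn_bisect (by decide +kernel) (posOn_rot 2 (posOn_bisect (by decide +kernel) (posOn_of_tree symMII0 homMII0 _ _ MII0_r3aaaaaaa) (posOn_of_tree symMII0 homMII0 _ _ MII0_r3aaaaaab))) (posOn_rot 1 (posOn_bisect (by decide +kernel) (posOn_rot 2 (posOn_bisect (by decide +kernel) (posOn_of_tree symMII0 homMII0 _ _ MII0_r3aaaaabaa) (posOn_of_tree symMII0 homMII0 _ _ MII0_r3aaaaabab))) (posOn_of_tree symMII0 homMII0 _ _ MII0_r3aaaaabb))))) (posOn_rot 1 (posOn_bisect (by decide +kernel) (posOn_rot 2 (posOn_bisect (by decide +kernel) (posOn_rot 2 (posOn_bisect (by decide +kernel) (posOn_of_tree symMII0 homMII0 _ _ MII0_r3aaaabaaa) (posOn_of_tree symMII0 homMII0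 _ _ MII0_r3aaaabaab))) (posOn_rot 1 (posOn_bisect (by decide +kernel) (posOn_of_tree symMII0 homMII0 _ _ MII0_r3aaaababa) (posOn_of_tree symMII0 homMII0 _ _ MII0_r3aaaababb))))) (posOn_rot 1 (posOn_bisect (by decide +kernel) (posOn_of_tree symMII0 homMII0 _ _ MII0_r3aaaabba) (posOn_rot 1 (posOn_bisect (by decide +kernel) (posOn_of_tree symMII0 homMII0 _ _ MII0_r3aaaabbba) (posOn_of_tree symMII0 homMII0 _ _ MII0_r3aaaabbbb))))))))) (posOn_rot 1 (posOn_bisect (by decide +kernel) (posOn_rot 2 (posOn_bisect (by decide +kernel) (posOn_of_tree symMII0 homMII0 _ _ MII0_r3aaabaa) (posOn_of_tree symMII0 homMII0 _ _ MII0_r3aaabab))) (posOn_rot 1 (posOn_bisect (by decide +kernel) (posOn_rot 2 (posOn_bisect (by decide +kernel) (posOn_of_tree symMII0 homMII0 _ _ MII0_r3aaabbaa) (posOn_of_tree symMII0 homMII0 _ _ MII0_r3aaabbab))) (posOn_rot 1 (posOn_bisect (by decide +kernel) (posOn_of_tree symMII0 homMII0 _ _ MII0_r3aaabbba) (posOn_of_tree symMII0 homMII0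 _ _ MII0_r3aaabbbb))))))))) (posOn_rot 1 (posOn_bisect (by decide +kernel) (posOn_rot 2 (posOn_bisect (by decide +kernel) (posOn_rot 2 (posOn_bisect (by decide +kernel) (posOn_rot 2 (posOn_bisect (by decide +kernel) (posOn_rot 2 (posOn_bisect (by decide +kernel) (posOn_of_tree symMII0 homMII0 _ _ MII0_r3aabaaaaa) (posOn_of_tree symMII0 homMII0 _ _ MII0_r3aabaaaab))) (posOn_rot 1 (posOn_bisect (by decide +kernel) (posOn_of_tree symMII0 homMII0 _ _ MII0_r3aabaaaba) (posOn_of_tree symMII0 homMII0 _ _ MII0_r3aabaaabb))))) (posOn_rot 1 (posOn_bisect (by decide +kernel) (posOn_rot 2 (posOn_bisect (by decide +kernel) (posOn_of_tree symMII0 homMII0 _ _ MII0_r3aabaabaa) (posOn_of_tree symMII0 homMII0 _ _ MII0_r3aabaabab))) (posOn_rot 1 (posOn_bisect (by decide +kernel) (posOn_of_tree symMII0 homMII0 _ _ MII0_r3aabaabba) (posOn_of_tree symMII0 homMII0 _ _ MII0_r3aabaabbb))))))) (posOn_rot 1 (posOn_bisect (by decide +kernel) (posOn_rot 2 (posOn_bisect (by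 decide +kernel) (posOn_rot 2 (posOn_bisect (by decide +kernel) (posOn_of_tree symMII0 homMII0 _ _ MII0_r3aababaaa) (posOn_of_tree symMII0 homMII0 _ _ MII0_r3aababaab))) (posOn_rot 1 (posOn_bisect (by decide +kernel) (posOn_of_tree symMII0 homMII0 _ _ MII0_r3aabababa) (posOn_of_tree symMII0 homMII0 _ _ MII0_r3aabababb))))) (posOn_rot 1 (posOn_bisect (by decide +kernel) (posOn_rot 2 (posOn_bisect (by decide +kernel) (posOn_of_tree symMII0 homMII0 _ _ MII0_r3aababbaa) (posOn_of_tree symMII0 homMII0 _ _ MII0_r3aababbab))) (posOn_rot 1 (posOn_bisect (by decide +kernel) (posOn_of_tree symMII0 homMII0 _ _ MII0_r3aababbba) (posOn_of_tree symMII0 homMII0 _ _ MII0_r3aababbbb))))))))) (posOn_rot 1 (posOn_bisect (by decide +kernel) (posOn_rot 2 (posOn_bisect (by decide +kernel) (posOn_rot 2 (posOn_bisect (by decide +kernel) (posOn_rot 2 (posOn_bisect (by decide +kernel) (posOn_of_tree symMII0 homMII0 _ _ MII0_r3aabbaaaa) (posOn_of_tree symMII0 homMII0 _ _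 MII0_r3aabbaaab))) (posOn_rot 1 (posOn_bisect (by decide +kernel) (posOn_of_tree symMII0 homMII0 _ _ MII0_r3aabbaaba) (posOn_of_tree symMII0 homMII0 _ _ MII0_r3aabbaabb))))) (posOn_rot 1 (posOn_bisect (by decide +kernel) (posOn_rot 2 (posOn_bisect (by decide +kernel) (posOn_of_tree symMII0 homMII0 _ _ MII0_r3aabbabaa) (posOn_rot 1 (posOn_bisect (by decide +kernel) (posOn_of_tree symMII0 homMII0 _ _ MII0_r3aabbababa) (posOn_of_tree symMII0 homMII0 _ _ MII0_r3aabbababb))))) (posOn_rot 1 (posOn_bisect (by decide +kernel) (posOn_of_tree symMII0 homMII0 _ _ MII0_r3aabbabba) (posOn_of_tree symMII0 homMII0 _ _ MII0_r3aabbabbb))))))) (posOn_rot 1 (posOn_bisect (by decide +kernel) (posOn_rot 2 (posOn_bisect (by decide +kernel) (posOn_rot 2 (posOn_bisect (by decide +kernel) (posOn_of_tree symMII0 homMII0 _ _ MII0_r3aabbbaaa) (posOn_of_tree symMII0 homMII0 _ _ MII0_r3aabbbaab))) (posOn_rot 1 (posOn_bisect (by decide +kernel) (posOn_of_tree symMII0 homMII0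 _ _ MII0_r3aabbbaba) (posOn_of_tree symMII0 homMII0 _ _ MII0_r3aabbbabb))))) (posOn_rot 1 (posOn_bisect (by decide +kernel) (posOn_rot 2 (posOn_bisect (by decide +kernel) (posOn_of_tree symMII0 homMII0 _ _ MII0_r3aabbbbaa) (posOn_of_tree symMII0 homMII0 _ _ MII0_r3aabbbbab))) (posOn_rot 1 (posOn_bisect (by decide +kernel) (posOn_of_tree symMII0 homMII0 _ _ MII0_r3aabbbbba) (posOn_of_tree symMII0 homMII0 _ _ MII0_r3aabbbbbb))))))))))))) (posOn_rot 1 (posOn_bisect (by decide +kernel) (posOn_rot 2 (posOn_bisect (by decide +kernel) (posOn_rot 2 (posOn_bisect (by decide +kernel) (posOn_rot 2 (posOn_bisect (by decide +kernel) (posOn_rot 2 (posOn_bisect (by decide +kernel) (posOn_of_tree symMII0 homMII0 _ _ MII0_r3abaaaaa) (posOn_of_tree symMII0 homMII0 _ _ MII0_r3abaaaab))) (posOn_of_tree symMII0 homMII0 _ _ MII0_r3abaaab))) (posOn_rot 1 (posOn_bisect (by decide +kernel) (posOn_rot 2 (posOn_bisect (by decide +kernel) (posOn_rot 2 (posOn_bisect (by decide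 +kernel) (posOn_of_tree symMII0 homMII0 _ _ MII0_r3abaabaaa) (posOn_of_tree symMII0 homMII0 _ _ MII0_r3abaabaab))) (posOn_rot 1 (posOn_bisect (by decide +kernel) (posOn_of_tree symMII0 homMII0 _ _ MII0_r3abaababa) (posOn_of_tree symMII0 homMII0 _ _ MII0_r3abaababb))))) (posOn_rot 1 (posOn_bisect (by decide +kernel) (posOn_rot 2 (posOn_bisect (by decide +kernel) (posOn_of_tree symMII0 homMII0 _ _ MII0_r3abaabbaa) (posOn_of_tree symMII0 homMII0 _ _ MII0_r3abaabbab))) (posOn_rot 1 (posOn_bisect (by decide +kernel) (posOn_of_tree symMII0 homMII0 _ _ MII0_r3abaabbba) (posOn_of_tree symMII0 homMII0 _ _ MII0_r3abaabbbb))))))))) (posOn_rot 1 (posOn_bisect (by decide +kernel) (posOn_rot 2 (posOn_bisect (by decide +kernel) (posOn_rot 2 (posOn_bisect (by decide +kernel) (posOn_of_tree symMII0 homMII0 _ _ MII0_r3ababaaa) (posOn_rot 1 (posOn_bisect (by decide +kernel) (posOn_of_tree symMII0 homMII0 _ _ MII0_r3ababaaba) (posOn_of_tree symMII0 homMII0 _ _ MII0_r3ababaabb)))))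 (posOn_rot 1 (posOn_bisect (by decide +kernel) (posOn_of_tree symMII0 homMII0 _ _ MII0_r3abababa) (posOn_of_tree symMII0 homMII0 _ _ MII0_r3abababb))))) (posOn_rot 1 (posOn_bisect (by decide +kernel) (posOn_of_tree symMII0 homMII0 _ _ MII0_r3ababba) (posOn_rot 1 (posOn_bisect (by decide +kernel) (posOn_of_tree symMII0 homMII0 _ _ MII0_r3ababbba) (posOn_of_tree symMII0 homMII0 _ _ MII0_r3ababbbb))))))))) (posOn_rot 1 (posOn_bisect (by decide +kernel) (posOn_rot 2 (posOn_bisect (by decide +kernel) (posOn_rot 2 (posOn_bisect (by decide +kernel) (posOn_of_tree symMII0 homMII0 _ _ MII0_r3abbaaa) (posOn_of_tree symMII0 homMII0 _ _ MII0_r3abbaab))) (posOn_rot 1 (posOn_bisect (by decide +kernel) (posOn_of_tree symMII0 homMII0 _ _ MII0_r3abbaba) (posOn_of_tree symMII0 homMII0 _ _ MII0_r3abbabb))))) (posOn_rot 1 (posOn_bisect (by decide +kernel) (posOn_rot 2 (posOn_bisect (by decide +kernel) (posOn_rot 2 (posOn_bisect (by decide +kernel) (posOn_of_tree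 symMII0 homMII0 _ _ MII0_r3abbbaaa) (posOn_of_tree symMII0 homMII0 _ _ MII0_r3abbbaab))) (posOn_rot 1 (posOn_bisect (by decide +kernel) (posOn_rot 2 (posOn_bisect (by decide +kernel) (posOn_of_tree symMII0 homMII0 _ _ MII0_r3abbbabaa) (posOn_of_tree symMII0 homMII0 _ _ MII0_r3abbbabab))) (posOn_of_tree symMII0 homMII0 _ _ MII0_r3abbbabb))))) (posOn_rot 1 (posOn_bisect (by decide +kernel) (posOn_rot 2 (posOn_bisect (by decide +kernel) (posOn_of_tree symMII0 homMII0 _ _ MII0_r3abbbbaa) (posOn_of_tree symMII0 homMII0 _ _ MII0_r3abbbbab))) (posOn_rot 1 (posOn_bisect (by decide +kernel) (posOn_of_tree symMII0 homMII0 _ _ MII0_r3abbbbba) (posOn_of_tree symMII0 homMII0 _ _ MII0_r3abbbbbb))))))))))))) (posOn_rot 1 (posOn_bisect (by decide +kernel) (posOn_rot 2 (posOn_bisect (by decide +kernel) (posOn_rot 2 (posOn_bisect (by decide +kernel) (posOn_rot 2 (posOn_bisect (by decide +kernel) (posOn_rot 2 (posOn_bisect (by decide +kernel) (posOn_rot 2 (posOn_bisect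 (by decide +kernel) (posOn_of_tree symMII0 homMII0 _ _ MII0_r3baaaaaa) (posOn_of_tree symMII0 homMII0 _ _ MII0_r3baaaaab))) (posOn_of_tree symMII0 homMII0 _ _ MII0_r3baaaab))) (posOn_rot 1 (posOn_bisect (by decide +kernel) (posOn_rot 2 (posOn_bisect (by decide +kernel) (posOn_of_tree symMII0 homMII0 _ _ MII0_r3baaabaa) (posOn_of_tree symMII0 homMII0 _ _ MII0_r3baaabab))) (posOn_rot 1 (posOn_bisect (by decide +kernel) (posOn_of_tree symMII0 homMII0 _ _ MII0_r3baaabba) (posOn_of_tree symMII0 homMII0 _ _ MII0_r3baaabbb))))))) (posOn_rot 1 (posOn_bisect (by decide +kernel) (posOn_rot 2 (posOn_bisect (by decide +kernel) (posOn_of_tree symMII0 homMII0 _ _ MII0_r3baabaa) (posOn_of_tree symMII0 homMII0 _ _ MII0_r3baabab))) (posOn_rot 1 (posOn_bisect (by decide +kernel) (posOn_of_tree symMII0 homMII0 _ _ MII0_r3baabba) (posOn_of_tree symMII0 homMII0 _ _ MII0_r3baabbb))))))) (posOn_rot 1 (posOn_bisect (by decide +kernel) (posOn_rot 2 (posOn_bisect (by decide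 +kernel) (posOn_rot 2 (posOn_bisect (by decide +kernel) (posOn_of_tree symMII0 homMII0 _ _ MII0_r3babaaa) (posOn_of_tree symMII0 homMII0 _ _ MII0_r3babaab))) (posOn_of_tree symMII0 homMII0 _ _ MII0_r3babab))) (posOn_rot 1 (posOn_bisect (by decide +kernel) (posOn_rot 2 (posOn_bisect (by decide +kernel) (posOn_of_tree symMII0 homMII0 _ _ MII0_r3babbaa) (posOn_rot 1 (posOn_bisect (by decide +kernel) (posOn_of_tree symMII0 homMII0 _ _ MII0_r3babbaba) (posOn_of_tree symMII0 homMII0 _ _ MII0_r3babbabb))))) (posOn_rot 1 (posOn_bisect (by decide +kernel) (posOn_of_tree symMII0 homMII0 _ _ MII0_r3babbba) (posOn_of_tree symMII0 homMII0 _ _ MII0_r3babbbb))))))))) (posOn_rot 1 (posOn_bisect (by decide +kernel) (posOn_rot 2 (posOn_bisect (by decide +kernel) (posOn_rot 2 (posOn_bisect (by decide +kernel) (posOn_rot 2 (posOn_bisect (by decide +kernel) (posOn_rot 2 (posOn_bisect (by decide +kernel) (posOn_of_tree symMII0 homMII0 _ _ MII0_r3bbaaaaa) (posOn_rot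 1 (posOn_bisect (by decide +kernel) (posOn_of_tree symMII0 homMII0 _ _ MII0_r3bbaaaaba) (posOn_of_tree symMII0 homMII0 _ _ MII0_r3bbaaaabb))))) (posOn_rot 1 (posOn_bisect (by decide +kernel) (posOn_rot 2 (posOn_bisect (by decide +kernel) (posOn_of_tree symMII0 homMII0 _ _ MII0_r3bbaaabaa) (posOn_of_tree symMII0 homMII0 _ _ MII0_r3bbaaabab))) (posOn_of_tree symMII0 homMII0 _ _ MII0_r3bbaaabb))))) (posOn_rot 1 (posOn_bisect (by decide +kernel) (posOn_rot 2 (posOn_bisect (by decide +kernel) (posOn_rot 2 (posOn_bisect (by decide +kernel) (posOn_of_tree symMII0 homMII0 _ _ MII0_r3bbaabaaa) (posOn_of_tree symMII0 homMII0 _ _ MII0_r3bbaabaab))) (posOn_of_tree symMII0 homMII0 _ _ MII0_r3bbaabab))) (posOn_rot 1 (posOn_bisect (by decide +kernel) (posOn_rot 2 (posOn_bisect (by decide +kernel) (posOn_of_tree symMII0 homMII0 _ _ MII0_r3bbaabbaa) (posOn_of_tree symMII0 homMII0 _ _ MII0_r3bbaabbab))) (posOn_rot 1 (posOn_bisect (by decide +kernel) (posOn_of_tree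 symMII0 homMII0 _ _ MII0_r3bbaabbba) (posOn_of_tree symMII0 homMII0 _ _ MII0_r3bbaabbbb))))))))) (posOn_rot 1 (posOn_bisect (by decide +kernel) (posOn_rot 2 (posOn_bisect (by decide +kernel) (posOn_rot 2 (posOn_bisect (by decide +kernel) (posOn_rot 2 (posOn_bisect (by decide +kernel) (posOn_of_tree symMII0 homMII0 _ _ MII0_r3bbabaaaa) (posOn_rot 1 (posOn_bisect (by decide +kernel) (posOn_of_tree symMII0 homMII0 _ _ MII0_r3bbabaaaba) (posOn_of_tree symMII0 homMII0 _ _ MII0_r3bbabaaabb))))) (posOn_rot 1 (posOn_bisect (by decide +kernel) (posOn_rot 2 (posOn_bisect (by decide +kernel) (posOn_of_tree symMII0 homMII0 _ _ MII0_r3bbabaabaa) (posOn_of_tree symMII0 homMII0 _ _ MII0_r3bbabaabab))) (posOn_of_tree symMII0 homMII0 _ _ MII0_r3bbabaabb))))) (posOn_rot 1 (posOn_bisect (by decide +kernel) (posOn_rot 2 (posOn_bisect (by decide +kernel) (posOn_of_tree symMII0 homMII0 _ _ MII0_r3bbababaa) (posOn_of_tree symMII0 homMII0 _ _ MII0_r3bbababab))) (posOn_rot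 1 (posOn_bisect (by decide +kernel) (posOn_of_tree symMII0 homMII0 _ _ MII0_r3bbababba) (posOn_of_tree symMII0 homMII0 _ _ MII0_r3bbababbb))))))) (posOn_rot 1 (posOn_bisect (by decide +kernel) (posOn_rot 2 (posOn_bisect (by decide +kernel) (posOn_rot 2 (posOn_bisect (by decide +kernel) (posOn_of_tree symMII0 homMII0 _ _ MII0_r3bbabbaaa) (posOn_of_tree symMII0 homMII0 _ _ MII0_r3bbabbaab))) (posOn_rot 1 (posOn_bisect (by decide +kernel) (posOn_of_tree symMII0 homMII0 _ _ MII0_r3bbabbaba) (posOn_of_tree symMII0 homMII0 _ _ MII0_r3bbabbabb))))) (posOn_rot 1 (posOn_bisect (by decide +kernel) (posOn_rot 2 (posOn_bisect (by decide +kernel) (posOn_of_tree symMII0 homMII0 _ _ MII0_r3bbabbbaa) (posOn_of_tree symMII0 homMII0 _ _ MII0_r3bbabbbab))) (posOn_rot 1 (posOn_bisect (by decide +kernel) (posOn_of_tree symMII0 homMII0 _ _ MII0_r3bbabbbba) (posOn_of_tree symMII0 homMII0 _ _ MII0_r3bbabbbbb))))))))))) (posOn_rot 1 (posOn_bisect (by decide +kernel) (posOn_rot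 2 (posOn_bisect (by decide +kernel) (posOn_rot 2 (posOn_bisect (by decide +kernel) (posOn_rot 2 (posOn_bisect (by decide +kernel) (posOn_of_tree symMII0 homMII0 _ _ MII0_r3bbbaaaa) (posOn_of_tree symMII0 homMII0 _ _ MII0_r3bbbaaab))) (posOn_rot 1 (posOn_bisect (by decide +kernel) (posOn_of_tree symMII0 homMII0 _ _ MII0_r3bbbaaba) (posOn_of_tree symMII0 homMII0 _ _ MII0_r3bbbaabb))))) (posOn_rot 1 (posOn_bisect (by decide +kernel) (posOn_of_tree symMII0 homMII0 _ _ MII0_r3bbbaba) (posOn_rot 1 (posOn_bisect (by decide +kernel) (posOn_of_tree symMII0 homMII0 _ _ MII0_r3bbbabba) (posOn_of_tree symMII0 homMII0 _ _ MII0_r3bbbabbb))))))) (posOn_rot 1 (posOn_bisect (by decide +kernel) (posOn_rot 2 (posOn_bisect (by decide +kernel) (posOn_rot 2 (posOn_bisect (by decide +kernel) (posOn_of_tree symMII0 homMII0 _ _ MII0_r3bbbbaaa) (posOn_of_tree symMII0 homMII0 _ _ MII0_r3bbbbaab))) (posOn_rot 1 (posOn_bisect (by decide +kernel) (posOn_of_tree symMII0 homMII0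 _ _ MII0_r3bbbbaba) (posOn_of_tree symMII0 homMII0 _ _ MII0_r3bbbbabb))))) (posOn_rot 1 (posOn_bisect (by decide +kernel) (posOn_rot 2 (posOn_bisect (by decide +kernel) (posOn_of_tree symMII0 homMII0 _ _ MII0_r3bbbbbaa) (posOn_of_tree symMII0 homMII0 _ _ MII0_r3bbbbbab))) (posOn_rot 1 (posOn_bisect (by decide +kernel) (posOn_of_tree symMII0 homMII0 _ _ MII0_r3bbbbbba) (posOn_of_tree symMII0 homMII0 _ _ MII0_r3bbbbbbb)))))))))))))))

theorem nonnegII0 {X Y Z : ℝ} (hX : |X| ≤ Z) (hY : 0 ≤ Y) (hYZ : Y ≤ Z) (hZ : 0 < Z)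
    (ξ : Fin 9 → ℝ) : 0 ≤ qf X Y Z SII0 ξ := by
  refine qf_nonneg wt0 (M := MII0) ?_ ?_ hX hY hYZ hZ ξ
  · intro i
    fin_cases i
    · exact posOnMII0_0
    · exact posOnMII0_1
    · exact posOnMII0_2
    · exact posOnMII0_3
  · intro k
    fin_cases k
    · exact entryII0_0
    · exact entryII0_1
    · exact entryII0_2
    · exact entryII0_3
    · exact entryII0_4
    · exact entryII0_5
    · exact entryII0_6
    · exact entryII0_7
    · exact entryII0_8

end Vale.Agent.P252.General.Cert4
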