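import Vale.Agent.P252.Rigidity.General.Cert4.Trees.MII1_0
import Vale.Agent.P252.Rigidity.General.Cert4.Entries.EII1_0
import Vale.Agent.P252.Rigidity.General.Cert4.Region

/-! One block is nonnegative on its region, generated. -/

namespace Vale.Agent.P252.General.Cert4

open Vale.Agent.P100T.PosCheck Vale.Agent.P252.PolyPSD

theorem symMII1 : ∀ k l, MII1 k l = MII1 l k := by
  intro k l
  fin_cases k <;> fin_cases l <;> rfl

theorem homMII1 : ∀ k l, isHom 8 (MII1 k l) = true := by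
  decide +kernel

theorem posOnMII1_0 : PosOn MII1 (roots 0) :=
  (posOn_rot 1 (posOn_bisect (by decide +kernel) (posOn_rot 2 (posOn_bisect (by decide +kernel) (posOn_of_tree symMII1 homMII1 _ _ MII1_r0aa) (posOn_rot 1 (posOn_bisect (by decide +kernel) (posOn_of_tree symMII1 homMII1 _ _ MII1_r0aba) (posOn_of_tree symMII1 homMII1 _ _ MII1_r0abb))))) (posOn_of_tree symMII1 homMII1 _ _ MII1_r0b)))

theorem posOnMII1_1 : PosOn MII1 (roots 1) :=
  (posOn_rot 2 (posOn_bisect (by decide +kernel) (posOn_rot 2 (posOn_bisect (by decide +kernel) (posOn_of_tree symMII1 homMII1 _ _ MII1_r1aa) (posOn_of_tree symMII1 homMII1 _ _ MII1_r1ab))) (posOn_of_tree symMII1 homMII1 _ _ MII1_r1b)))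

theorem posOnMII1_2 : PosOn MII1 (roots 2) :=
  (posOn_rot 2 (posOn_bisect (by decide +kernel) (posOn_rot 2 (posOn_bisect (by decide +kernel) (posOn_rot 2 (posOn_bisect (by decide +kernel) (posOn_rot 2 (posOn_bisect (by decide +kernel) (posOn_rot 2 (posOn_bisect (by decide +kernel) (posOn_of_tree symMII1 homMII1 _ _ MII1_r2aaaaa) (posOn_of_tree symMII1 homMII1 _ _ MII1_r2aaaab))) (posOn_rot 1 (posOn_bisect (by decide +kernel) (posOn_of_tree symMII1 homMII1 _ _ MII1_r2aaaba) (posOn_of_tree symMII1 homMII1 _ _ MII1_r2aaabb))))) (posOn_rot 1 (posOn_bisect (by decide +kernel) (posOn_rot 2 (posOn_bisect (by decide +kernel) (posOn_rot 2 (posOn_bisect (by decide +kernel) (posOn_rot 2 (posOn_bisect (by decide +kernel) (posOn_of_tree symMII1 homMII1 _ _ MII1_r2aabaaaa) (posOn_of_tree symMII1 homMII1 _ _ MII1_r2aabaaab))) (posOn_of_tree symMII1 homMII1 _ _ MII1_r2aabaab))) (posOn_rot 1 (posOn_bisect (by decide +kernel) (posOn_rot 2 (posOn_bisect (by decide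 +kernel) (posOn_of_tree symMII1 homMII1 _ _ MII1_r2aababaa) (posOn_rot 1 (posOn_bisect (by decide +kernel) (posOn_rot 2 (posOn_bisect (by decide +kernel) (posOn_of_tree symMII1 homMII1 _ _ MII1_r2aabababaa) (posOn_of_tree symMII1 homMII1 _ _ MII1_r2aabababab))) (posOn_of_tree symMII1 homMII1 _ _ MII1_r2aabababb))))) (posOn_rot 1 (posOn_bisect (by decide +kernel) (posOn_of_tree symMII1 homMII1 _ _ MII1_r2aababba) (posOn_of_tree symMII1 homMII1 _ _ MII1_r2aababbb))))))) (posOn_rot 1 (posOn_bisect (by decide +kernel) (posOn_of_tree symMII1 homMII1 _ _ MII1_r2aabba) (posOn_rot 1 (posOn_bisect (by decide +kernel) (posOn_of_tree symMII1 homMII1 _ _ MII1_r2aabbba) (posOn_of_tree symMII1 homMII1 _ _ MII1_r2aabbbb))))))))) (posOn_rot 1 (posOn_bisect (by decide +kernel) (posOn_rot 2 (posOn_bisect (by decide +kernel) (posOn_of_tree symMII1 homMII1 _ _ MII1_r2abaa) (posOn_of_tree symMII1 homMII1 _ _ MII1_r2abab))) (posOn_rot 1 (posOn_bisect (by decide +kernel)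 (posOn_of_tree symMII1 homMII1 _ _ MII1_r2abba) (posOn_of_tree symMII1 homMII1 _ _ MII1_r2abbb))))))) (posOn_rot 1 (posOn_bisect (by decide +kernel) (posOn_rot 2 (posOn_bisect (by decide +kernel) (posOn_rot 2 (posOn_bisect (by decide +kernel) (posOn_rot 2 (posOn_bisect (by decide +kernel) (posOn_of_tree symMII1 homMII1 _ _ MII1_r2baaaa) (posOn_of_tree symMII1 homMII1 _ _ MII1_r2baaab))) (posOn_of_tree symMII1 homMII1 _ _ MII1_r2baab))) (posOn_rot 1 (posOn_bisect (by decide +kernel) (posOn_of_tree symMII1 homMII1 _ _ MII1_r2baba) (posOn_rot 1 (posOn_bisect (by decide +kernel) (posOn_of_tree symMII1 homMII1 _ _ MII1_r2babba) (posOn_of_tree symMII1 homMII1 _ _ MII1_r2babbb))))))) (posOn_rot 1 (posOn_bisect (by decide +kernel) (posOn_rot 2 (posOn_bisect (by decide +kernel) (posOn_rot 2 (posOn_bisect (by decide +kernel) (posOn_rot 2 (posOn_bisect (by decide +kernel) (posOn_of_tree symMII1 homMII1 _ _ MII1_r2bbaaaa) (posOn_of_tree symMII1 homMII1 _ _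 MII1_r2bbaaab))) (posOn_rot 1 (posOn_bisect (by decide +kernel) (posOn_of_tree symMII1 homMII1 _ _ MII1_r2bbaaba) (posOn_of_tree symMII1 homMII1 _ _ MII1_r2bbaabb))))) (posOn_rot 1 (posOn_bisect (by decide +kernel) (posOn_rot 2 (posOn_bisect (by decide +kernel) (posOn_rot 2 (posOn_bisect (by decide +kernel) (posOn_rot 2 (posOn_bisect (by decide +kernel) (posOn_rot 2 (posOn_bisect (by decide +kernel) (posOn_of_tree symMII1 homMII1 _ _ MII1_r2bbabaaaaa) (posOn_of_tree symMII1 homMII1 _ _ MII1_r2bbabaaaab))) (posOn_of_tree symMII1 homMII1 _ _ MII1_r2bbabaaab))) (posOn_rot 1 (posOn_bisect (by decide +kernel) (posOn_of_tree symMII1 homMII1 _ _ MII1_r2bbabaaba) (posOn_of_tree symMII1 homMII1 _ _ MII1_r2bbabaabb))))) (posOn_rot 1 (posOn_bisect (by decide +kernel) (posOn_rot 2 (posOn_bisect (by decide +kernel) (posOn_rot 2 (posOn_bisect (by decide +kernel) (posOn_rot 2 (posOn_bisect (by decide +kernel) (posOn_of_tree symMII1 homMII1 _ _ MII1_r2bbababaaaa)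 (posOn_of_tree symMII1 homMII1 _ _ MII1_r2bbababaaab))) (posOn_rot 1 (posOn_bisect (by decide +kernel) (posOn_of_tree symMII1 homMII1 _ _ MII1_r2bbababaaba) (posOn_of_tree symMII1 homMII1 _ _ MII1_r2bbababaabb))))) (posOn_rot 1 (posOn_bisect (by decide +kernel) (posOn_of_tree symMII1 homMII1 _ _ MII1_r2bbabababa) (posOn_rot 1 (posOn_bisect (by decide +kernel) (posOn_of_tree symMII1 homMII1 _ _ MII1_r2bbabababba) (posOn_of_tree symMII1 homMII1 _ _ MII1_r2bbabababbb))))))) (posOn_rot 1 (posOn_bisect (by decide +kernel) (posOn_of_tree symMII1 homMII1 _ _ MII1_r2bbababba) (posOn_rot 1 (posOn_bisect (by decide +kernel) (posOn_of_tree symMII1 homMII1 _ _ MII1_r2bbababbba) (posOn_of_tree symMII1 homMII1 _ _ MII1_r2bbababbbb))))))))) (posOn_rot 1 (posOn_bisect (by decide +kernel) (posOn_of_tree symMII1 homMII1 _ _ MII1_r2bbabba) (posOn_rot 1 (posOn_bisect (by decide +kernel) (posOn_of_tree symMII1 homMII1 _ _ MII1_r2bbabbba) (posOn_of_tree symMII1 homMII1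 _ _ MII1_r2bbabbbb))))))))) (posOn_rot 1 (posOn_bisect (by decide +kernel) (posOn_of_tree symMII1 homMII1 _ _ MII1_r2bbba) (posOn_rot 1 (posOn_bisect (by decide +kernel) (posOn_rot 2 (posOn_bisect (by decide +kernel) (posOn_of_tree symMII1 homMII1 _ _ MII1_r2bbbbaa) (posOn_of_tree symMII1 homMII1 _ _ MII1_r2bbbbab))) (posOn_of_tree symMII1 homMII1 _ _ MII1_r2bbbbb)))))))))))

theorem posOnMII1_3 : PosOn MII1 (roots 3) :=
  (posOn_rot 0 (posOn_bisect (by decide +kernel) (posOn_rot 2 (posOn_bisect (by decide +kernel) (posOn_rot 2 (posOn_bisect (by decide +kernel) (posOn_of_tree symMII1 homMII1 _ _ MII1_r3aaa) (posOn_of_tree symMII1 homMII1 _ _ MII1_r3aab))) (posOn_rot 1 (posOn_bisect (by decide +kernel) (posOn_of_tree symMII1 homMII1 _ _ MII1_r3aba) (posOn_of_tree symMII1 homMII1 _ _ MII1_r3abb))))) (posOn_rot 1 (posOn_bisect (by decide +kernel) (posOn_rot 2 (posOn_bisect (by decide +kernel) (posOn_of_tree symMII1 homMII1 _ _ MII1_r3baa) (posOn_of_tree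 symMII1 homMII1 _ _ MII1_r3bab))) (posOn_rot 1 (posOn_bisect (by decide +kernel) (posOn_of_tree symMII1 homMII1 _ _ MII1_r3bba) (posOn_of_tree symMII1 homMII1 _ _ MII1_r3bbb)))))))

theorem nonnegII1 {X Y Z : ℝ} (hX : |X| ≤ Z) (hY : 0 ≤ Y) (hYZ : Y ≤ Z) (hZ : 0 < Z)
    (ξ : Fin 5 → ℝ) : 0 ≤ qf X Y Z SII1 ξ := by
  refine qf_nonneg wt1 (M := MII1) ?_ ?_ hX hY hYZ hZ ξ
  · intro i
    fin_cases i
    · exact posOnMII1_0
    · exact posOnMII1_1
    · exact posOnMII1_2
    · exact posOnMII1_3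
  · intro k
    fin_cases k
    · exact entryII1_0
    · exact entryII1_1
    · exact entryII1_2
    · exact entryII1_3
    · exact entryII1_4

end Vale.Agent.P252.General.Cert4
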