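import Vale.Agent.P252.Rigidity.General.Cert4.Trees.MII2_0
import Vale.Agent.P252.Rigidity.General.Cert4.Entries.EII2_0
import Vale.Agent.P252.Rigidity.General.Cert4.Region

/-! One block is nonnegative on its region, generated. -/

namespace Vale.Agent.P252.General.Cert4

open Vale.Agent.P100T.PosCheck Vale.Agent.P252.PolyPSD

theorem symMII2 : ∀ k l, MII2 k l = MII2 l k := by
  intro k l
  fin_cases k <;> fin_cases l <;> rfl

theorem homMII2 : ∀ k l, isHom 8 (MII2 k l) = true := by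
  decide +kernel

theorem posOnMII2_0 : PosOn MII2 (roots 0) :=
  (posOn_rot 1 (posOn_bisect (by decide +kernel) (posOn_rot 2 (posOn_bisect (by decide +kernel) (posOn_of_tree symMII2 homMII2 _ _ MII2_r0aa) (posOn_of_tree symMII2 homMII2 _ _ MII2_r0ab))) (posOn_of_tree symMII2 homMII2 _ _ MII2_r0b)))

theorem posOnMII2_1 : PosOn MII2 (roots 1) :=
  (posOn_of_tree symMII2 homMII2 _ _ MII2_r1)

theorem posOnMII2_2 : PosOn MII2 (roots 2) :=
  (posOn_rot 2 (posOn_bisect (by decide +kernel) (posOn_rot 2 (posOn_bisect (by decide +kernel) (posOn_rot 2 (posOn_bisect (by decide +kernel) (posOn_of_tree symMII2 homMII2 _ _ MII2_r2aaa) (posOn_rot 1 (posOn_bisect (by decide +kernel) (posOn_rot 2 (posOn_bisect (by decide +kernel) (posOn_rot 2 (posOn_bisect (by decide +kernel) (posOn_of_tree symMII2 homMII2 _ _ MII2_r2aabaaa) (posOn_of_tree symMII2 homMII2 _ _ MII2_r2aabaab))) (posOn_rot 1 (posOn_bisect (by decide +kernel) (posOn_rot 2 (posOn_bisect (by decide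 +kernel) (posOn_of_tree symMII2 homMII2 _ _ MII2_r2aababaa) (posOn_of_tree symMII2 homMII2 _ _ MII2_r2aababab))) (posOn_of_tree symMII2 homMII2 _ _ MII2_r2aababb))))) (posOn_rot 1 (posOn_bisect (by decide +kernel) (posOn_of_tree symMII2 homMII2 _ _ MII2_r2aabba) (posOn_of_tree symMII2 homMII2 _ _ MII2_r2aabbb))))))) (posOn_rot 1 (posOn_bisect (by decide +kernel) (posOn_of_tree symMII2 homMII2 _ _ MII2_r2aba) (posOn_of_tree symMII2 homMII2 _ _ MII2_r2abb))))) (posOn_rot 1 (posOn_bisect (by decide +kernel) (posOn_rot 2 (posOn_bisect (by decide +kernel) (posOn_of_tree symMII2 homMII2 _ _ MII2_r2baa) (posOn_of_tree symMII2 homMII2 _ _ MII2_r2bab))) (posOn_rot 1 (posOn_bisect (by decide +kernel) (posOn_rot 2 (posOn_bisect (by decide +kernel) (posOn_rot 2 (posOn_bisect (by decide +kernel) (posOn_of_tree symMII2 homMII2 _ _ MII2_r2bbaaa) (posOn_rot 1 (posOn_bisect (by decide +kernel) (posOn_of_tree symMII2 homMII2 _ _ MII2_r2bbaaba) (posOn_of_tree symMII2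 homMII2 _ _ MII2_r2bbaabb))))) (posOn_rot 1 (posOn_bisect (by decide +kernel) (posOn_rot 2 (posOn_bisect (by decide +kernel) (posOn_rot 2 (posOn_bisect (by decide +kernel) (posOn_of_tree symMII2 homMII2 _ _ MII2_r2bbabaaa) (posOn_rot 1 (posOn_bisect (by decide +kernel) (posOn_of_tree symMII2 homMII2 _ _ MII2_r2bbabaaba) (posOn_of_tree symMII2 homMII2 _ _ MII2_r2bbabaabb))))) (posOn_rot 1 (posOn_bisect (by decide +kernel) (posOn_rot 2 (posOn_bisect (by decide +kernel) (posOn_rot 2 (posOn_bisect (by decide +kernel) (posOn_of_tree symMII2 homMII2 _ _ MII2_r2bbababaaa) (posOn_of_tree symMII2 homMII2 _ _ MII2_r2bbababaab))) (posOn_of_tree symMII2 homMII2 _ _ MII2_r2bbababab))) (posOn_of_tree symMII2 homMII2 _ _ MII2_r2bbababb))))) (posOn_of_tree symMII2 homMII2 _ _ MII2_r2bbabb))))) (posOn_rot 1 (posOn_bisect (by decide +kernel) (posOn_of_tree symMII2 homMII2 _ _ MII2_r2bbba) (posOn_rot 1 (posOn_bisect (by decide +kernel) (posOn_of_tree symMII2 homMII2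 _ _ MII2_r2bbbba) (posOn_of_tree symMII2 homMII2 _ _ MII2_r2bbbbb)))))))))))

theorem posOnMII2_3 : PosOn MII2 (roots 3) :=
  (posOn_rot 0 (posOn_bisect (by decide +kernel) (posOn_of_tree symMII2 homMII2 _ _ MII2_r3a) (posOn_of_tree symMII2 homMII2 _ _ MII2_r3b)))

theorem nonnegII2 {X Y Z : ℝ} (hX : |X| ≤ Z) (hY : 0 ≤ Y) (hYZ : Y ≤ Z) (hZ : 0 < Z)
    (ξ : Fin 3 → ℝ) : 0 ≤ qf X Y Z SII2 ξ := by
  refine qf_nonneg wt2 (M := MII2) ?_ ?_ hX hY hYZ hZ ξ
  · intro i
    fin_cases i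
    · exact posOnMII2_0
    · exact posOnMII2_1
    · exact posOnMII2_2
    · exact posOnMII2_3
  · intro k
    fin_cases k
    · exact entryII2_0
    · exact entryII2_1
    · exact entryII2_2

end Vale.Agent.P252.General.Cert4
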