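import Vale.Agent.P252.Rigidity.General.Spec
import Vale.Agent.P252.Cert.PolyPSD

/-!
# Frame jets of four variables and their block coordinates

In the first frame `τ = (Z,0,0,0)` and `250 v = (X,Y,0,0)`, in the second `τ = (X,Y,0,0)` and
`250 v = (Z,0,0,0)`. The jet then splits into one scalar block (nine coordinates), two blocks of
five and two blocks of three.
-/

namespace Vale.Agent.P252.General.Cert4

open Finset Vale.Agent.P100T.PosCheck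

noncomputable section

/-- The free values of a frame jet. -/
structure Par : Type where
  h00 : ℝ
  h01 : ℝ
  h11 : ℝ
  h02 : ℝ
  h12 : ℝ
  h03 : ℝ
  h13 : ℝ
  h22 : ℝ
  h23 : ℝ
  a00 : ℝ
  a01 : ℝ
  a11 : ℝ
  b11 : ℝ
  a02 : ℝ
  a12 : ℝ
  b12 : ℝ
  a03 : ℝ
  a13 : ℝ
  b13 : ℝ
  a22 : ℝ
  a23 : ℝ
  b22 : ℝ
  b23 : ℝ
  e : ℝ

namespace Par

variable (p : Par)

/-- `D² log det` for given `|τ|²`. -/
def mH (Q : ℝ) : Matrix (Fin 4) (Fin 4) ℝ :=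
  !![p.h00, p.h01, p.h02, p.h03; p.h01, p.h11, p.h12, p.h13; p.h02, p.h12, p.h22, p.h23;
    p.h03, p.h13, p.h23, 5 / 6 * Q - p.h00 - p.h11 - p.h22]

/-- `D³u(e₀, ·, ·)` for given `τ₀`. -/
def mA (t0 : ℝ) : Matrix (Fin 4) (Fin 4) ℝ :=
  !![p.a00, p.a01, p.a02, p.a03; p.a01, p.a11, p.a12, p.a13; p.a02, p.a12, p.a22, p.a23;
    p.a03, p.a13, p.a23, t0 - p.a00 - p.a11 - p.a22]

/-- `D³u(e₁, ·, ·)` for given `τ₁`. -/
def mB (t1 : ℝ) : Matrix (Fin 4) (Fin 4) ℝ :=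
  !![p.a01, p.a11, p.a12, p.a13; p.a11, p.b11, p.b12, p.b13; p.a12, p.b12, p.b22, p.b23;
    p.a13, p.b13, p.b23, t1 - p.a01 - p.b11 - p.b22]

/-- The scalar block. -/
def x0 (Y : ℝ) : Fin 9 → ℝ := ![p.h00, p.h01, p.h11, p.a00, p.a01, p.a11, Y * p.b11, 1, p.e]

/-- The block of the axis `e₂`. -/
def x1a (Y : ℝ) : Fin 5 → ℝ := ![p.h02, p.h12, p.a02, p.a12, Y * p.b12]

/-- The block of the axis `e₃`. -/
def x1b (Y : ℝ) : Fin 5 → ℝ := ![p.h03, p.h13, p.a03, p.a13, Y * p.b13]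

/-- The off-diagonal block of the plane `e₂, e₃`. -/
def x2a (Y : ℝ) : Fin 3 → ℝ := ![p.h23, p.a23, Y * p.b23]

/-- The diagonal block of the plane `e₂, e₃`, for given `|τ|²`, `τ₀`, `τ₁`. -/
def x2b (Y Q t0 t1 : ℝ) : Fin 3 → ℝ :=
  ![(2 * p.h22 - (5 / 6 * Q - p.h00 - p.h11)) / 2, (2 * p.a22 - (t0 - p.a00 - p.a11)) / 2,
    Y * (2 * p.b22 - (t1 - p.a01 - p.b11)) / 2]

end Par

variable (X Y Z : ℝ) (p : Par) (S₂ S₃ : Matrix (Fin 4) (Fin 4) ℝ)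

/-- A jet in the first frame. -/
def jetI : Jet 4 where
  T := ![p.mA Z, p.mB 0, S₂, S₃]
  H := p.mH (Z ^ 2)
  t := ![Z, 0, 0, 0]
  v := ![X / 250, Y / 250, 0, 0]
  e := p.e

/-- A jet in the second frame. -/
def jetII : Jet 4 where
  T := ![p.mA X, p.mB Y, S₂, S₃]
  H := p.mH (X ^ 2 + Y ^ 2)
  t := ![X, Y, 0, 0]
  v := ![Z / 250, 0, 0, 0]
  e := p.e

lemma C_jetI (z : Fin 2) : (jetI X Y Z p S₂ S₃).C z =
    ![Z • p.mA Z, (X / 250) • p.mA Z + (Y / 250) • p.mB 0] z := by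
  fin_cases z <;> simp [Jet.C, Jet.Z, jetI, Fin.sum_univ_four]

lemma C_jetII (z : Fin 2) : (jetII X Y Z p S₂ S₃).C z =
    ![X • p.mA X + Y • p.mB Y, (Z / 250) • p.mA X] z := by
  fin_cases z <;> simp [Jet.C, Jet.Z, jetII, Fin.sum_univ_four]

/-- A symmetric matrix of expressions as a quadratic form. -/
def qf {m : ℕ} (A : Fin m → Fin m → Ex) (ξ : Fin m → ℝ) : ℝ :=
  ∑ k, ∑ l, ξ k * PolyPSD.evalAt (A k l) (X, Y, Z) * ξ l

/-- The five block forms. -/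
def blocks (A₀ : Fin 9 → Fin 9 → Ex) (A₁ : Fin 5 → Fin 5 → Ex) (A₂ : Fin 3 → Fin 3 → Ex)
    (Q t0 t1 : ℝ) : ℝ :=
  qf X Y Z A₀ (p.x0 Y) + qf X Y Z A₁ (p.x1a Y) + qf X Y Z A₁ (p.x1b Y) +
    qf X Y Z A₂ (p.x2a Y) + qf X Y Z A₂ (p.x2b Y Q t0 t1)

end

/-- A monomial with an integer coefficient. -/
def m3 (c : ℤ) (i j k : ℕ) : Ex :=
  .mul (.num c) (.mul (.pow .x i) (.mul (.pow .y j) (.pow .z k)))

end Vale.Agent.P252.General.Cert4
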