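import Vale.Agent.P252.Rigidity.General.Cert4.Point
import Vale.Agent.P252.Rigidity.General.Cert4.Reduce

/-!
# The numerator of the flux as one combination of the block tables

With `A, B, C` the values `62500 d₀₀`, `62500 d₀₁`, `62500 d₁₁` of a frame and `S` the common
scale, `S num + margins` is the form of a combination of the tables with polynomial weights.
-/

namespace Vale.Agent.P252.General.Cert4

open Finset Vale.Agent.P100T.PosCheck Vale.Agent.P252.PolyPSD
open scoped Matrix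

noncomputable section

/-- The scale. -/
def scale : ℕ := 1341104507446289062500000000000000000

/-- The integer multiplier of the output `o` of a term of total exponent `l`. -/
def mult (b : Fin 12) (l : ℕ) (o : Fin 4) : ℕ :=
  if o = 0 then scale / (62500 ^ (l + 1) * den b o) else scale / (40 * 62500 ^ l * den b o)

theorem mult_zero : ∀ b : Fin 12, ∀ l < 3, mult b l 0 * (62500 ^ (l + 1) * den b 0) = scale := by
  decide +kernel

theorem mult_succ : ∀ b : Fin 12, ∀ l < 3, ∀ o : Fin 4, o ≠ 0 →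
    mult b l o * (40 * 62500 ^ l * den b o) = scale := by
  decide +kernel

theorem terms4_small : terms4.all (fun T => decide (T.i + T.j + T.k < 3)) = true := by
  decide +kernel

/-- The polynomial part of the weights of a term. -/
def wPoly (A B C : Ex) (i j k : ℕ) : Fin 4 → Ex :=
  let m : Ex := .mul (.pow A i) (.mul (.pow B j) (.pow C k))
  let F : Ex := .add A (.mul (.num 55000) C)
  ![.mul F m,
    .sub (.mul (.num 40) (.mul F (.mul (.mul (.num i) (.pow A (i - 1))) (.mul (.pow B j) (.pow C k)))))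
      (.mul (.num 39) m),
    .mul (.num 40) (.mul F (.mul (.mul (.num j) (.pow B (j - 1))) (.mul (.pow A i) (.pow C k)))),
    .sub (.mul (.num 40) (.mul F (.mul (.mul (.num k) (.pow C (k - 1))) (.mul (.pow A i) (.pow B j)))))
      (.mul (.num 2145000) m)]

/-- The weight of one output of a term. -/
def wEx (A B C : Ex) (T : Trm) (o : Fin 4) : Ex :=
  .mul (.num (T.c * (mult T.b (T.i + T.j + T.k) o : ℕ))) (wPoly A B C T.i T.j T.k o)

/-- A product, dropped when the table entry is the zero constant. -/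
def smul0 (w : Ex) : Ex → Ex
  | .num 0 => .num 0
  | e => .mul w e

theorem eval_smul0 (w e : Ex) (X Y Z : ℝ) :
    (smul0 w e).eval X Y Z = w.eval X Y Z * e.eval X Y Z := by
  unfold smul0
  split <;> simp [Ex.eval]

/-- The combination of one table. -/
def comb {m : ℕ} (A B C : Ex) (tab : Fin 12 → Fin 4 → Fin m → Fin m → Ex) (k l : Fin m) : Ex :=
  sumEx (terms4.map fun T => sumEx ((List.finRange 4).map fun o =>
    smul0 (wEx A B C T o) (tab T.b o k l)))

theorem qf_sum {α : Type} {m : ℕ} (X Y Z : ℝ) (F : α → Fin m → Fin m → Ex) (ξ : Fin m → ℝ) :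
    ∀ l : List α, qf X Y Z (fun i j => sumEx (l.map fun a => F a i j)) ξ =
      (l.map fun a => qf X Y Z (F a) ξ).sum
  | [] => by simp [qf, sumEx, evalAt, Ex.eval]
  | a :: l => by
    rw [List.map_cons, List.sum_cons, ← qf_sum X Y Z F ξ l]
    simp only [qf, evalAt, ← Finset.sum_add_distrib]
    refine Finset.sum_congr rfl fun i _ => Finset.sum_congr rfl fun j _ => ?_
    show ξ i * (Ex.add (F a i j) (sumEx (l.map fun a => F a i j))).eval X Y Z * ξ j = _
    simp only [Ex.eval]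
    ring

theorem qf_smul0 {m : ℕ} (X Y Z : ℝ) (w : Ex) (A : Fin m → Fin m → Ex) (ξ : Fin m → ℝ) :
    qf X Y Z (fun i j => smul0 w (A i j)) ξ = w.eval X Y Z * qf X Y Z A ξ := by
  simp only [qf, evalAt, eval_smul0, Finset.mul_sum]
  exact Finset.sum_congr rfl fun i _ => Finset.sum_congr rfl fun j _ => by ring

theorem qf_comb {m : ℕ} (X Y Z : ℝ) (A B C : Ex) (tab : Fin 12 → Fin 4 → Fin m → Fin m → Ex)
    (ξ : Fin m → ℝ) :
    qf X Y Z (comb A B C tab) ξ = (terms4.map fun T =>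
      ∑ o, (wEx A B C T o).eval X Y Z * qf X Y Z (tab T.b o) ξ).sum := by
  refine (qf_sum X Y Z (fun T i j => sumEx ((List.finRange 4).map fun o =>
    smul0 (wEx A B C T o) (tab T.b o i j))) ξ terms4).trans ?_
  refine congrArg List.sum (List.map_congr_left fun T _ => ?_)
  rw [qf_sum X Y Z (fun o i j => smul0 (wEx A B C T o) (tab T.b o i j)) ξ, Fin.sum_univ_def]
  exact congrArg List.sum (List.map_congr_left fun o _ => qf_smul0 X Y Z _ _ ξ)

/-- The numerator is a sum over the terms. -/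
theorem num_eq_sum (J : Jet 4) (P : Params) :
    J.num P = (P.terms.map fun T => T.c * (J.bigF P *
        (J.mono T * (J.baseDiv T.base + J.dW P ⬝ᵥ J.baseY T.base) + J.dmono T ⬝ᵥ J.baseY T.base) +
      P.e0 * J.mono T * (J.dF P ⬝ᵥ J.baseY T.base))).sum := by
  simp only [Jet.num, Jet.polyDiv, Jet.polyY]
  induction P.terms with
  | nil => simp
  | cons T l ih =>
    simp only [List.map_cons, List.sum_cons, ← ih, dotProduct_add, dotProduct_smul, smul_eq_mul]
    ring

theorem scale_term {q A B C : ℝ} (hq : q ≠ 0) (i j k : ℕ) (h : i + j + k < 3) :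
    q ^ (i + j + k + 1) * ((A / q + 55000 * (C / q)) * ((A / q) ^ i * (B / q) ^ j * (C / q) ^ k)) =
        (A + 55000 * C) * (A ^ i * (B ^ j * C ^ k)) ∧
      40 * q ^ (i + j + k) * ((A / q + 55000 * (C / q)) * ((i : ℝ) * (A / q) ^ (i - 1) * (B / q) ^ j * (C / q) ^ k) +
          -39 / 40 * ((A / q) ^ i * (B / q) ^ j * (C / q) ^ k)) =
        40 * ((A + 55000 * C) * ((i : ℝ) * A ^ (i - 1) * (B ^ j * C ^ k))) - 39 * (A ^ i * (B ^ j * C ^ k)) ∧
      40 * q ^ (i + j + k) * ((A / q + 55000 * (C / q)) * ((A / q) ^ i * ((j : ℝ) * (B / q) ^ (j - 1)) * (C / q) ^ k)) =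
        40 * ((A + 55000 * C) * ((j : ℝ) * B ^ (j - 1) * (A ^ i * C ^ k))) ∧
      40 * q ^ (i + j + k) * ((A / q + 55000 * (C / q)) * ((A / q) ^ i * (B / q) ^ j * ((k : ℝ) * (C / q) ^ (k - 1))) +
          55000 * (-39 / 40) * ((A / q) ^ i * (B / q) ^ j * (C / q) ^ k)) =
        40 * ((A + 55000 * C) * ((k : ℝ) * C ^ (k - 1) * (A ^ i * B ^ j))) - 2145000 * (A ^ i * (B ^ j * C ^ k)) := by
  have hi : i < 3 := by omega
  have hj : j < 3 := by omega
  have hk : k < 3 := by omega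
  interval_cases i <;> interval_cases j <;> interval_cases k <;>
    first
    | omega
    | (refine ⟨?_, ?_, ?_, ?_⟩ <;> norm_num <;> field_simp <;> ring)

/-- The weighted outputs of a term reproduce its scaled contribution to the numerator. -/
theorem scale_num (J : Jet 4) (X Y Z : ℝ) (A B C : Ex)
    (hA : A.eval X Y Z = 62500 * J.d 0 0) (hB : B.eval X Y Z = 62500 * J.d 0 1)
    (hC : C.eval X Y Z = 62500 * J.d 1 1) :
    (scale : ℝ) * J.num P4 = (terms4.map fun T =>
      ∑ o, (wEx A B C T o).eval X Y Z * ((den T.b o : ℝ) * outs J T.b o)).sum := by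
  rw [num_eq_sum, show P4.terms = terms4.map Trm.toTerm from rfl, List.map_map, ← List.sum_map_mul_left]
  refine congrArg List.sum (List.map_congr_left fun T hT => ?_)
  have hs : T.i + T.j + T.k < 3 := of_decide_eq_true (List.all_eq_true.1 terms4_small T hT)
  obtain ⟨s0, s1, s2, s3⟩ := scale_term (A := A.eval X Y Z) (B := B.eval X Y Z) (C := C.eval X Y Z)
    (q := (62500 : ℝ)) (by norm_num) T.i T.j T.k hs
  have hd : ∀ x : ℝ, 62500 * x / 62500 = x := fun x => by ring
  simp only [hA, hB, hC, hd] at s0 s1 s2 s3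
  have hW : J.dW P4 = (100 : ℝ) • J.v + (-1 / 2 : ℝ) • J.t := by
    simp [Jet.dW, P4]
  have n0 := congrArg (fun x : ℕ => (x : ℝ)) (mult_zero T.b _ hs)
  have n1 := congrArg (fun x : ℕ => (x : ℝ)) (mult_succ T.b _ hs 1 (by decide))
  have n2 := congrArg (fun x : ℕ => (x : ℝ)) (mult_succ T.b _ hs 2 (by decide))
  have n3 := congrArg (fun x : ℕ => (x : ℝ)) (mult_succ T.b _ hs 3 (by decide))
  push_cast at n0 n1 n2 n3
  simp only [Function.comp_apply, hW]
  simp only [Trm.toTerm, Jet.mono, Jet.dmono, Jet.bigF, Jet.dF, P4, outs,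
    add_dotProduct, smul_dotProduct, smul_eq_mul, Fin.sum_univ_four, wEx, wPoly, Ex.eval,
    Matrix.cons_val_zero, Matrix.cons_val_one, Matrix.cons_val, hA, hB, hC, Int.cast_mul,
    Int.cast_natCast]
  push_cast
  set m0 := (mult T.b (T.i + T.j + T.k) 0 : ℝ)
  set m1 := (mult T.b (T.i + T.j + T.k) 1 : ℝ)
  set m2 := (mult T.b (T.i + T.j + T.k) 2 : ℝ)
  set m3 := (mult T.b (T.i + T.j + T.k) 3 : ℝ)
  rw [← s0, ← s1, ← s2, ← s3]
  linear_combination
    (-(T.c : ℝ) * (J.d 0 0 + 55000 * J.d 1 1) * (J.d 0 0 ^ T.i * J.d 0 1 ^ T.j * J.d 1 1 ^ T.k) *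
      (J.baseDiv (base12 T.b) + (100 * (J.v ⬝ᵥ J.baseY (base12 T.b)) +
        -1 / 2 * (J.t ⬝ᵥ J.baseY (base12 T.b))))) * n0 +
    (-(T.c : ℝ) * ((J.d 0 0 + 55000 * J.d 1 1) * ((T.i : ℝ) * J.d 0 0 ^ (T.i - 1) * J.d 0 1 ^ T.j * J.d 1 1 ^ T.k) +
      -39 / 40 * (J.d 0 0 ^ T.i * J.d 0 1 ^ T.j * J.d 1 1 ^ T.k)) * (J.dd 0 0 ⬝ᵥ J.baseY (base12 T.b))) * n1 +
    (-(T.c : ℝ) * ((J.d 0 0 + 55000 * J.d 1 1) * (J.d 0 0 ^ T.i * ((T.j : ℝ) * J.d 0 1 ^ (T.j - 1)) * J.d 1 1 ^ T.k)) *
      (J.dd 0 1 ⬝ᵥ J.baseY (base12 T.b))) * n2 +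
    (-(T.c : ℝ) * ((J.d 0 0 + 55000 * J.d 1 1) * (J.d 0 0 ^ T.i * J.d 0 1 ^ T.j * ((T.k : ℝ) * J.d 1 1 ^ (T.k - 1))) +
      55000 * (-39 / 40) * (J.d 0 0 ^ T.i * J.d 0 1 ^ T.j * J.d 1 1 ^ T.k)) * (J.dd 1 1 ⬝ᵥ J.baseY (base12 T.b))) * n3

/-- The margins: a multiple of `F⁴` at the constant and of `F²` at `e`. -/
def margin (A C : Ex) (k l : Fin 9) : Ex :=
  let F : Ex := .add A (.mul (.num 55000) C)
  if k = 7 ∧ l = 7 then .mul (.num (-(3 * 87890625000000000))) (.pow F 4)
  else if k = 8 ∧ l = 8 then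
    .mul (.num (100000000000000000 * 87890625000000000 * 3906250000)) (.pow F 2)
  else .num 0

/-- The scalar block of the certificate. -/
def full0 (A B C : Ex) (tab : Fin 12 → Fin 4 → Fin 9 → Fin 9 → Ex) (k l : Fin 9) : Ex :=
  .add (comb A B C tab k l) (margin A C k l)

theorem qf_full0 (X Y Z : ℝ) (A B C : Ex) (tab : Fin 12 → Fin 4 → Fin 9 → Fin 9 → Ex)
    (ξ : Fin 9 → ℝ) (h : ξ 7 = 1) :
    qf X Y Z (full0 A B C tab) ξ = qf X Y Z (comb A B C tab) ξ
      - 3 * 87890625000000000 * (A.eval X Y Z + 55000 * C.eval X Y Z) ^ 4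
      + 100000000000000000 * 87890625000000000 * 3906250000 *
        (A.eval X Y Z + 55000 * C.eval X Y Z) ^ 2 * ξ 8 ^ 2 := by
  have e : qf X Y Z (full0 A B C tab) ξ = qf X Y Z (comb A B C tab) ξ + qf X Y Z (margin A C) ξ := by
    simp only [qf, full0, evalAt, Ex.eval, ← Finset.sum_add_distrib]
    exact Finset.sum_congr rfl fun i _ => Finset.sum_congr rfl fun j _ => by ring
  rw [e]
  simp [qf, margin, evalAt, Ex.eval, Fin.sum_univ_succ, show (Fin.succ 0 : Fin 2) = 1 from rfl]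
  rw [h]
  ring

end

end Vale.Agent.P252.General.Cert4
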