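import Vale.Agent.P252.Rigidity.General.Cert4.BlockI0
import Vale.Agent.P252.Rigidity.General.Cert4.BlockI1
import Vale.Agent.P252.Rigidity.General.Cert4.BlockI2
import Vale.Agent.P252.Rigidity.General.Cert4.BlockII0
import Vale.Agent.P252.Rigidity.General.Cert4.BlockII1
import Vale.Agent.P252.Rigidity.General.Cert4.BlockII2

/-!
# The algebraic inequality in four variables
-/

namespace Vale.Agent.P252.General.Cert4

open Finset Vale.Agent.P100T.PosCheck Vale.Agent.P252.PolyPSD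
open scoped Matrix

noncomputable section

theorem num_eq_zero_of_zero (J : Jet 4) (h0 : J.Z 0 = 0) (h1 : J.Z 1 = 0) :
    J.num P4 = 0 ∧ J.bigF P4 = 0 := by
  have hF : J.bigF P4 = 0 := by simp [Jet.bigF, Jet.d, h0, h1]
  have hdF : J.dF P4 = 0 := by simp [Jet.dF, Jet.dd, h0, h1]
  exact ⟨by simp [Jet.num, hF, hdF], hF⟩

theorem sum_blocks (l : List Trm) (g : Trm → Fin 4 → ℝ) (A B C D E : Trm → Fin 4 → ℝ) :
    (l.map fun T => ∑ o, g T o * (A T o + B T o + C T o + D T o + E T o)).sum =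
      (l.map fun T => ∑ o, g T o * A T o).sum + (l.map fun T => ∑ o, g T o * B T o).sum +
        (l.map fun T => ∑ o, g T o * C T o).sum + (l.map fun T => ∑ o, g T o * D T o).sum +
          (l.map fun T => ∑ o, g T o * E T o).sum := by
  induction l with
  | nil => simp
  | cons T l ih =>
    simp only [List.map_cons, List.sum_cons]
    rw [ih]
    simp only [mul_add, Finset.sum_add_distrib]
    ring

theorem den_pos : ∀ b o, 0 < den b o := by decide +kernel

theorem numI (X Y Z : ℝ) (p : Par) (S₂ S₃ : Matrix (Fin 4) (Fin 4) ℝ) :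
    (scale : ℝ) * (jetI X Y Z p S₂ S₃).num P4 =
      qf X Y Z (comb (varsI 0) (varsI 1) (varsI 2) tabI0) (p.x0 Y) +
        qf X Y Z SI1 (p.x1a Y) + qf X Y Z SI1 (p.x1b Y) + qf X Y Z SI2 (p.x2a Y) +
          qf X Y Z SI2 (p.x2b Y (Z ^ 2) Z 0) := by
  rw [scale_num (jetI X Y Z p S₂ S₃) X Y Z (varsI 0) (varsI 1) (varsI 2)]
  · simp only [SI1, SI2, qf_comb, ← sum_blocks]
    refine congrArg List.sum (List.map_congr_left fun T _ => Finset.sum_congr rfl fun o _ => ?_)
    rw [outsI, mul_div_cancel₀ _ (Nat.cast_ne_zero.2 (den_pos T.b o).ne'), blocks]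
  all_goals
    simp [varsI, m3, Ex.eval, Jet.d, Jet.Z, jetI, dotProduct, Fin.sum_univ_four]
    ring

theorem numII (X Y Z : ℝ) (p : Par) (S₂ S₃ : Matrix (Fin 4) (Fin 4) ℝ) :
    (scale : ℝ) * (jetII X Y Z p S₂ S₃).num P4 =
      qf X Y Z (comb (varsII 0) (varsII 1) (varsII 2) tabII0) (p.x0 Y) +
        qf X Y Z SII1 (p.x1a Y) + qf X Y Z SII1 (p.x1b Y) + qf X Y Z SII2 (p.x2a Y) +
          qf X Y Z SII2 (p.x2b Y (X ^ 2 + Y ^ 2) X Y) := by
  rw [scale_num (jetII X Y Z p S₂ S₃) X Y Z (varsII 0) (varsII 1) (varsII 2)]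
  · simp only [SII1, SII2, qf_comb, ← sum_blocks]
    refine congrArg List.sum (List.map_congr_left fun T _ => Finset.sum_congr rfl fun o _ => ?_)
    rw [outsII, mul_div_cancel₀ _ (Nat.cast_ne_zero.2 (den_pos T.b o).ne'), blocks]
  all_goals
    simp [varsII, m3, Ex.eval, Jet.d, Jet.Z, jetII, dotProduct, Fin.sum_univ_four]
    ring

theorem scale_eq : (scale : ℝ) = 62500 ^ 4 * 87890625000000000 := by
  norm_num [scale]

theorem scale_eq' : (scale : ℝ) = 62500 ^ 2 * (87890625000000000 * 3906250000) := by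
  norm_num [scale]

theorem bound {N F e A : ℝ} (hA : A = 62500 * F)
    (h : 0 ≤ (scale : ℝ) * N - 3 * 87890625000000000 * A ^ 4 +
      100000000000000000 * 87890625000000000 * 3906250000 * A ^ 2 * e ^ 2) :
    3 * F ^ 4 - 100000000000000000 * e ^ 2 * F ^ 2 ≤ N := by
  have hs : (0 : ℝ) < scale := by norm_num [scale]
  subst hA
  by_contra hn
  push Not at hn
  have := mul_lt_mul_of_pos_left hn hs
  have e1 : (scale : ℝ) * (3 * F ^ 4 - 100000000000000000 * e ^ 2 * F ^ 2) =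
      3 * 87890625000000000 * (62500 * F) ^ 4 -
        100000000000000000 * 87890625000000000 * 3906250000 * (62500 * F) ^ 2 * e ^ 2 := by
    rw [mul_sub]
    congr 1
    · rw [scale_eq]; ring
    · rw [scale_eq']; ring
  linarith

theorem certIneq4 : CertIneq 4 P4 := by
  refine certIneq4_of_frames P4 (by norm_num [P4]) (by norm_num [P4]) (by norm_num [P4])
    (by norm_num [P4]) ?_ (by norm_num [P4]) (δ := 3) (C₀ := 100000000000000000) (by norm_num)
    (by norm_num) ?_ ?_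
  · intro T hT
    simp only [P4, List.mem_map] at hT
    obtain ⟨t, ht, rfl⟩ := hT
    have hw : ∀ b, (base12 b).wt = ![1, 1, 3, 3, 3, 3, 3, 5, 5, 5, 5, 5] b := by
      intro b; fin_cases b <;> rfl
    fin_cases ht <;> simp [P4, Trm.toTerm, hw] <;> norm_num
  · intro X Y Z p S₂ S₃ hX hY hYZ
    rcases (le_trans hY hYZ).lt_or_eq with hZ | hZ
    · refine bound (A := (varsI 0).eval X Y Z + 55000 * (varsI 2).eval X Y Z) ?_ ?_
      · simp [varsI, m3, Ex.eval, Jet.bigF, Jet.d, Jet.Z, jetI, P4, dotProduct, Fin.sum_univ_four]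
        ring
      · have h0 := nonnegI0 hX hY hYZ hZ (p.x0 Y)
        rw [SI0, qf_full0 X Y Z _ _ _ _ _ (by rfl), show p.x0 Y 8 = p.e from rfl] at h0
        rw [numI, show (jetI X Y Z p S₂ S₃).e = p.e from rfl]
        linarith [nonnegI1 hX hY hYZ hZ (p.x1a Y), nonnegI1 hX hY hYZ hZ (p.x1b Y),
          nonnegI2 hX hY hYZ hZ (p.x2a Y), nonnegI2 hX hY hYZ hZ (p.x2b Y (Z ^ 2) Z 0)]
    · subst hZ
      obtain rfl : X = 0 := abs_nonpos_iff.1 hX
      obtain rfl : Y = 0 := le_antisymm hYZ hY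
      obtain ⟨hN, hF⟩ := num_eq_zero_of_zero (jetI 0 0 0 p S₂ S₃)
        (by ext i; fin_cases i <;> simp [Jet.Z, jetI]) (by ext i; fin_cases i <;> simp [Jet.Z, jetI])
      simp [hN, hF]
  · intro X Y Z p S₂ S₃ hX hY hYZ
    rcases (le_trans hY hYZ).lt_or_eq with hZ | hZ
    · refine bound (A := (varsII 0).eval X Y Z + 55000 * (varsII 2).eval X Y Z) ?_ ?_
      · simp [varsII, m3, Ex.eval, Jet.bigF, Jet.d, Jet.Z, jetII, P4, dotProduct, Fin.sum_univ_four]
        ring
      · have h0 := nonnegII0 hX hY hYZ hZ (p.x0 Y)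
        rw [SII0, qf_full0 X Y Z _ _ _ _ _ (by rfl), show p.x0 Y 8 = p.e from rfl] at h0
        rw [numII, show (jetII X Y Z p S₂ S₃).e = p.e from rfl]
        linarith [nonnegII1 hX hY hYZ hZ (p.x1a Y), nonnegII1 hX hY hYZ hZ (p.x1b Y),
          nonnegII2 hX hY hYZ hZ (p.x2a Y), nonnegII2 hX hY hYZ hZ (p.x2b Y (X ^ 2 + Y ^ 2) X Y)]
    · subst hZ
      obtain rfl : X = 0 := abs_nonpos_iff.1 hX
      obtain rfl : Y = 0 := le_antisymm hYZ hY
      obtain ⟨hN, hF⟩ := num_eq_zero_of_zero (jetII 0 0 0 p S₂ S₃)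
        (by ext i; fin_cases i <;> simp [Jet.Z, jetII]) (by ext i; fin_cases i <;> simp [Jet.Z, jetII])
      simp [hN, hF]

end

end Vale.Agent.P252.General.Cert4
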