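import Vale.Agent.P252.Rigidity.General.Cert4.Bases.B0
import Vale.Agent.P252.Rigidity.General.Cert4.Bases.B1
import Vale.Agent.P252.Rigidity.General.Cert4.Bases.B2
import Vale.Agent.P252.Rigidity.General.Cert4.Bases.B3
import Vale.Agent.P252.Rigidity.General.Cert4.Bases.B4
import Vale.Agent.P252.Rigidity.General.Cert4.Bases.B5
import Vale.Agent.P252.Rigidity.General.Cert4.Bases.B6
import Vale.Agent.P252.Rigidity.General.Cert4.Bases.B7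
import Vale.Agent.P252.Rigidity.General.Cert4.Bases.B8
import Vale.Agent.P252.Rigidity.General.Cert4.Bases.B9
import Vale.Agent.P252.Rigidity.General.Cert4.Bases.B10
import Vale.Agent.P252.Rigidity.General.Cert4.Bases.B11

/-!
# The certificate for four variables: parameters and tables of block forms
-/

namespace Vale.Agent.P252.General.Cert4

open Vale.Agent.P100T.PosCheck
open scoped Matrix

noncomputable section

/-- The twelve basic fields. -/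
def base12 : Fin 12 → Base :=
  ![.k 0, .k 1, .h 0, .h 1, .t 0 0, .t 0 1, .t 1 1, .ah 0, .ah 1, .atb 0 0, .atb 0 1, .atb 1 1]

/-- A term of the certificate. -/
structure Trm : Type where
  b : Fin 12
  c : ℤ
  i : ℕ
  j : ℕ
  k : ℕ

/-- The term as a `Term`. -/
def Trm.toTerm (T : Trm) : Term := ⟨base12 T.b, (T.c : ℝ), T.i, T.j, T.k⟩

/-- The coefficients. -/
def terms4 : List Trm :=
  [⟨0, 20141, 2, 0, 0⟩,
    ⟨0, 21619600, 1, 1, 0⟩,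
    ⟨0, 2885750000, 1, 0, 1⟩,
    ⟨0, 4823230000, 0, 2, 0⟩,
    ⟨0, 1806887000000, 0, 1, 1⟩,
    ⟨0, 125000900000000, 0, 0, 2⟩,
    ⟨1, 8308300, 2, 0, 0⟩,
    ⟨1, 74650000, 1, 1, 0⟩,
    ⟨1, 673682000000, 1, 0, 1⟩,
    ⟨1, -524623000000, 0, 2, 0⟩,
    ⟨1, 151735400000000, 0, 1, 1⟩,
    ⟨1, 13479010000000000, 0, 0, 2⟩,
    ⟨2, 106419, 1, 0, 0⟩,
    ⟨2, 469600, 0, 1, 0⟩,
    ⟨2, 5471080000, 0, 0, 1⟩,
    ⟨3, -15556300, 1, 0, 0⟩,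
    ⟨3, 16197340000, 0, 1, 0⟩,
    ⟨3, -367657000000, 0, 0, 1⟩,
    ⟨4, -92688, 1, 0, 0⟩,
    ⟨4, -3980700, 0, 1, 0⟩,
    ⟨4, -5241460000, 0, 0, 1⟩,
    ⟨5, -14606000, 1, 0, 0⟩,
    ⟨5, -9786730000, 0, 1, 0⟩,
    ⟨5, -908360000000, 0, 0, 1⟩,
    ⟨6, -3543030000, 1, 0, 0⟩,
    ⟨6, 187079000000, 0, 1, 0⟩,
    ⟨6, -205444000000000, 0, 0, 1⟩,
    ⟨7, 5330100, 0, 0, 0⟩,
    ⟨8, -343430000, 0, 0, 0⟩,
    ⟨9, 1212700, 0, 0, 0⟩,
    ⟨10, 3604750000, 0, 0, 0⟩,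
    ⟨11, 0, 0, 0, 0⟩]

/-- The parameters of the certificate for four variables. -/
def P4 : Params where
  a := 100
  gam := -1 / 2
  kap := 55000
  e0 := -39 / 40
  deg := 81 / 20
  terms := terms4.map Trm.toTerm

/-- The four outputs of a basic field. -/
def outs (J : Jet 4) (b : Fin 12) : Fin 4 → ℝ :=
  ![J.baseDiv (base12 b) + ((100 : ℝ) • J.v + (-1 / 2 : ℝ) • J.t) ⬝ᵥ J.baseY (base12 b),
    J.dd 0 0 ⬝ᵥ J.baseY (base12 b), J.dd 0 1 ⬝ᵥ J.baseY (base12 b),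
    J.dd 1 1 ⬝ᵥ J.baseY (base12 b)]

/-- The denominators of the tables. -/
def den : Fin 12 → Fin 4 → ℕ :=
  ![![15, 2, 62500, 15625000],
    ![62500, 500, 15625000, 3906250000],
    ![360, 2, 125000, 15625000],
    ![375000, 500, 31250000, 3906250000],
    ![60, 1, 125000, 15625000],
    ![750000, 500, 31250000, 3906250000],
    ![31250000, 125000, 7812500000, 976562500000],
    ![375000, 500, 31250000, 3906250000],
    ![93750000, 125000, 7812500000, 976562500000],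
    ![375000, 250, 31250000, 3906250000],
    ![93750000, 125000, 7812500000, 976562500000],
    ![23437500000, 31250000, 1953125000000, 244140625000000]]

/-- Block 0 of every output in frame I. -/
def tabI0 : Fin 12 → Fin 4 → Fin 9 → Fin 9 → Ex :=
  ![![b0DI_0, b0G00I_0, b0G01I_0, b0G11I_0],
    ![b1DI_0, b1G00I_0, b1G01I_0, b1G11I_0],
    ![b2DI_0, b2G00I_0, b2G01I_0, b2G11I_0],
    ![b3DI_0, b3G00I_0, b3G01I_0, b3G11I_0],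
    ![b4DI_0, b4G00I_0, b4G01I_0, b4G11I_0],
    ![b5DI_0, b5G00I_0, b5G01I_0, b5G11I_0],
    ![b6DI_0, b6G00I_0, b6G01I_0, b6G11I_0],
    ![b7DI_0, b7G00I_0, b7G01I_0, b7G11I_0],
    ![b8DI_0, b8G00I_0, b8G01I_0, b8G11I_0],
    ![b9DI_0, b9G00I_0, b9G01I_0, b9G11I_0],
    ![b10DI_0, b10G00I_0, b10G01I_0, b10G11I_0],
    ![b11DI_0, b11G00I_0, b11G01I_0, b11G11I_0]]

/-- Block 1 of every output in frame I. -/
def tabI1 : Fin 12 → Fin 4 → Fin 5 → Fin 5 → Ex :=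
  ![![b0DI_1, b0G00I_1, b0G01I_1, b0G11I_1],
    ![b1DI_1, b1G00I_1, b1G01I_1, b1G11I_1],
    ![b2DI_1, b2G00I_1, b2G01I_1, b2G11I_1],
    ![b3DI_1, b3G00I_1, b3G01I_1, b3G11I_1],
    ![b4DI_1, b4G00I_1, b4G01I_1, b4G11I_1],
    ![b5DI_1, b5G00I_1, b5G01I_1, b5G11I_1],
    ![b6DI_1, b6G00I_1, b6G01I_1, b6G11I_1],
    ![b7DI_1, b7G00I_1, b7G01I_1, b7G11I_1],
    ![b8DI_1, b8G00I_1, b8G01I_1, b8G11I_1],
    ![b9DI_1, b9G00I_1, b9G01I_1, b9G11I_1],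
    ![b10DI_1, b10G00I_1, b10G01I_1, b10G11I_1],
    ![b11DI_1, b11G00I_1, b11G01I_1, b11G11I_1]]

/-- Block 2 of every output in frame I. -/
def tabI2 : Fin 12 → Fin 4 → Fin 3 → Fin 3 → Ex :=
  ![![b0DI_2, b0G00I_2, b0G01I_2, b0G11I_2],
    ![b1DI_2, b1G00I_2, b1G01I_2, b1G11I_2],
    ![b2DI_2, b2G00I_2, b2G01I_2, b2G11I_2],
    ![b3DI_2, b3G00I_2, b3G01I_2, b3G11I_2],
    ![b4DI_2, b4G00I_2, b4G01I_2, b4G11I_2],
    ![b5DI_2, b5G00I_2, b5G01I_2, b5G11I_2],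
    ![b6DI_2, b6G00I_2, b6G01I_2, b6G11I_2],
    ![b7DI_2, b7G00I_2, b7G01I_2, b7G11I_2],
    ![b8DI_2, b8G00I_2, b8G01I_2, b8G11I_2],
    ![b9DI_2, b9G00I_2, b9G01I_2, b9G11I_2],
    ![b10DI_2, b10G00I_2, b10G01I_2, b10G11I_2],
    ![b11DI_2, b11G00I_2, b11G01I_2, b11G11I_2]]

/-- Block 0 of every output in frame II. -/
def tabII0 : Fin 12 → Fin 4 → Fin 9 → Fin 9 → Ex :=
  ![![b0DII_0, b0G00II_0, b0G01II_0, b0G11II_0],
    ![b1DII_0, b1G00II_0, b1G01II_0, b1G11II_0],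
    ![b2DII_0, b2G00II_0, b2G01II_0, b2G11II_0],
    ![b3DII_0, b3G00II_0, b3G01II_0, b3G11II_0],
    ![b4DII_0, b4G00II_0, b4G01II_0, b4G11II_0],
    ![b5DII_0, b5G00II_0, b5G01II_0, b5G11II_0],
    ![b6DII_0, b6G00II_0, b6G01II_0, b6G11II_0],
    ![b7DII_0, b7G00II_0, b7G01II_0, b7G11II_0],
    ![b8DII_0, b8G00II_0, b8G01II_0, b8G11II_0],
    ![b9DII_0, b9G00II_0, b9G01II_0, b9G11II_0],
    ![b10DII_0, b10G00II_0, b10G01II_0, b10G11II_0],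
    ![b11DII_0, b11G00II_0, b11G01II_0, b11G11II_0]]

/-- Block 1 of every output in frame II. -/
def tabII1 : Fin 12 → Fin 4 → Fin 5 → Fin 5 → Ex :=
  ![![b0DII_1, b0G00II_1, b0G01II_1, b0G11II_1],
    ![b1DII_1, b1G00II_1, b1G01II_1, b1G11II_1],
    ![b2DII_1, b2G00II_1, b2G01II_1, b2G11II_1],
    ![b3DII_1, b3G00II_1, b3G01II_1, b3G11II_1],
    ![b4DII_1, b4G00II_1, b4G01II_1, b4G11II_1],
    ![b5DII_1, b5G00II_1, b5G01II_1, b5G11II_1],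
    ![b6DII_1, b6G00II_1, b6G01II_1, b6G11II_1],
    ![b7DII_1, b7G00II_1, b7G01II_1, b7G11II_1],
    ![b8DII_1, b8G00II_1, b8G01II_1, b8G11II_1],
    ![b9DII_1, b9G00II_1, b9G01II_1, b9G11II_1],
    ![b10DII_1, b10G00II_1, b10G01II_1, b10G11II_1],
    ![b11DII_1, b11G00II_1, b11G01II_1, b11G11II_1]]

/-- Block 2 of every output in frame II. -/
def tabII2 : Fin 12 → Fin 4 → Fin 3 → Fin 3 → Ex :=
  ![![b0DII_2, b0G00II_2, b0G01II_2, b0G11II_2],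
    ![b1DII_2, b1G00II_2, b1G01II_2, b1G11II_2],
    ![b2DII_2, b2G00II_2, b2G01II_2, b2G11II_2],
    ![b3DII_2, b3G00II_2, b3G01II_2, b3G11II_2],
    ![b4DII_2, b4G00II_2, b4G01II_2, b4G11II_2],
    ![b5DII_2, b5G00II_2, b5G01II_2, b5G11II_2],
    ![b6DII_2, b6G00II_2, b6G01II_2, b6G11II_2],
    ![b7DII_2, b7G00II_2, b7G01II_2, b7G11II_2],
    ![b8DII_2, b8G00II_2, b8G01II_2, b8G11II_2],
    ![b9DII_2, b9G00II_2, b9G01II_2, b9G11II_2],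
    ![b10DII_2, b10G00II_2, b10G01II_2, b10G11II_2],
    ![b11DII_2, b11G00II_2, b11G01II_2, b11G11II_2]]

theorem outsI (X Y Z : ℝ) (p : Par) (S₂ S₃ : Matrix (Fin 4) (Fin 4) ℝ) (b : Fin 12) (o : Fin 4) :
    outs (jetI X Y Z p S₂ S₃) b o =
      blocks X Y Z p (tabI0 b o) (tabI1 b o) (tabI2 b o) (Z ^ 2) Z 0 / (den b o : ℝ) := by
  fin_cases b <;> fin_cases o
  · exact b0DI X Y Z p S₂ S₃
  · exact b0G00I X Y Z p S₂ S₃
  · exact b0G01I X Y Z p S₂ S₃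
  · exact b0G11I X Y Z p S₂ S₃
  · exact b1DI X Y Z p S₂ S₃
  · exact b1G00I X Y Z p S₂ S₃
  · exact b1G01I X Y Z p S₂ S₃
  · exact b1G11I X Y Z p S₂ S₃
  · exact b2DI X Y Z p S₂ S₃
  · exact b2G00I X Y Z p S₂ S₃
  · exact b2G01I X Y Z p S₂ S₃
  · exact b2G11I X Y Z p S₂ S₃
  · exact b3DI X Y Z p S₂ S₃
  · exact b3G00I X Y Z p S₂ S₃
  · exact b3G01I X Y Z p S₂ S₃
  · exact b3G11I X Y Z p S₂ S₃
  · exact b4DI X Y Z p S₂ S₃
  · exact (b4G00I X Y Z p S₂ S₃).trans (congrArg _ Nat.cast_one.symm)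
  · exact b4G01I X Y Z p S₂ S₃
  · exact b4G11I X Y Z p S₂ S₃
  · exact b5DI X Y Z p S₂ S₃
  · exact b5G00I X Y Z p S₂ S₃
  · exact b5G01I X Y Z p S₂ S₃
  · exact b5G11I X Y Z p S₂ S₃
  · exact b6DI X Y Z p S₂ S₃
  · exact b6G00I X Y Z p S₂ S₃
  · exact b6G01I X Y Z p S₂ S₃
  · exact b6G11I X Y Z p S₂ S₃
  · exact b7DI X Y Z p S₂ S₃
  · exact b7G00I X Y Z p S₂ S₃
  · exact b7G01I X Y Z p S₂ S₃
  · exact b7G11I X Y Z p S₂ S₃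
  · exact b8DI X Y Z p S₂ S₃
  · exact b8G00I X Y Z p S₂ S₃
  · exact b8G01I X Y Z p S₂ S₃
  · exact b8G11I X Y Z p S₂ S₃
  · exact b9DI X Y Z p S₂ S₃
  · exact b9G00I X Y Z p S₂ S₃
  · exact b9G01I X Y Z p S₂ S₃
  · exact b9G11I X Y Z p S₂ S₃
  · exact b10DI X Y Z p S₂ S₃
  · exact b10G00I X Y Z p S₂ S₃
  · exact b10G01I X Y Z p S₂ S₃
  · exact b10G11I X Y Z p S₂ S₃
  · exact b11DI X Y Z p S₂ S₃
  · exact b11G00I X Y Z p S₂ S₃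
  · exact b11G01I X Y Z p S₂ S₃
  · exact b11G11I X Y Z p S₂ S₃

theorem outsII (X Y Z : ℝ) (p : Par) (S₂ S₃ : Matrix (Fin 4) (Fin 4) ℝ) (b : Fin 12) (o : Fin 4) :
    outs (jetII X Y Z p S₂ S₃) b o =
      blocks X Y Z p (tabII0 b o) (tabII1 b o) (tabII2 b o) (X ^ 2 + Y ^ 2) X Y / (den b o : ℝ) := by
  fin_cases b <;> fin_cases o
  · exact b0DII X Y Z p S₂ S₃
  · exact b0G00II X Y Z p S₂ S₃
  · exact b0G01II X Y Z p S₂ S₃
  · exact b0G11II X Y Z p S₂ S₃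
  · exact b1DII X Y Z p S₂ S₃
  · exact b1G00II X Y Z p S₂ S₃
  · exact b1G01II X Y Z p S₂ S₃
  · exact b1G11II X Y Z p S₂ S₃
  · exact b2DII X Y Z p S₂ S₃
  · exact b2G00II X Y Z p S₂ S₃
  · exact b2G01II X Y Z p S₂ S₃
  · exact b2G11II X Y Z p S₂ S₃
  · exact b3DII X Y Z p S₂ S₃
  · exact b3G00II X Y Z p S₂ S₃
  · exact b3G01II X Y Z p S₂ S₃
  · exact b3G11II X Y Z p S₂ S₃
  · exact b4DII X Y Z p S₂ S₃
  · exact (b4G00II X Y Z p S₂ S₃).trans (congrArg _ Nat.cast_one.symm)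
  · exact b4G01II X Y Z p S₂ S₃
  · exact b4G11II X Y Z p S₂ S₃
  · exact b5DII X Y Z p S₂ S₃
  · exact b5G00II X Y Z p S₂ S₃
  · exact b5G01II X Y Z p S₂ S₃
  · exact b5G11II X Y Z p S₂ S₃
  · exact b6DII X Y Z p S₂ S₃
  · exact b6G00II X Y Z p S₂ S₃
  · exact b6G01II X Y Z p S₂ S₃
  · exact b6G11II X Y Z p S₂ S₃
  · exact b7DII X Y Z p S₂ S₃
  · exact b7G00II X Y Z p S₂ S₃
  · exact b7G01II X Y Z p S₂ S₃
  · exact b7G11II X Y Z p S₂ S₃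
  · exact b8DII X Y Z p S₂ S₃
  · exact b8G00II X Y Z p S₂ S₃
  · exact b8G01II X Y Z p S₂ S₃
  · exact b8G11II X Y Z p S₂ S₃
  · exact b9DII X Y Z p S₂ S₃
  · exact b9G00II X Y Z p S₂ S₃
  · exact b9G01II X Y Z p S₂ S₃
  · exact b9G11II X Y Z p S₂ S₃
  · exact b10DII X Y Z p S₂ S₃
  · exact b10G00II X Y Z p S₂ S₃
  · exact b10G01II X Y Z p S₂ S₃
  · exact b10G11II X Y Z p S₂ S₃
  · exact b11DII X Y Z p S₂ S₃
  · exact b11G00II X Y Z p S₂ S₃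
  · exact b11G01II X Y Z p S₂ S₃
  · exact b11G11II X Y Z p S₂ S₃

end

end Vale.Agent.P252.General.Cert4
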